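import Vale.Agent.P139.H203.Main

/-! # P139, block (iv), part 1: a curve in the Wiener algebra that becomes unbounded stops every
`H^k` solution, `2k > d`, with the same datum -/

open Set Metric Filter Topology MeasureTheory
open scoped NNReal ENNReal ComplexConjugate

namespace Vale.Agent.P139.BU

open Vale.Agent.P139.A Vale.Agent.P139.A.WA Vale.Agent.P139.H836 Vale.Agent.P139.H203

variable {d k s : ℕ}

/-! ## Forgetting weights -/

theorem summable_down (a : WA d s) : Summable fun n => W 0 n * ‖coef a n‖ := by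
  simpa only [W0, one_mul] using a.summable_norm

/-- The inclusion of the weighted Wiener algebra into the Wiener algebra. -/
noncomputable def down (a : WA d s) : WA d 0 := mk (coef a) (summable_down a)

@[simp] theorem coef_down (a : WA d s) (n : Lat d) : coef (down a) n = coef a n := coef_mk _ _ n

theorem norm_down (a : WA d s) : ‖down a‖ = ∑' n, ‖coef a n‖ := by
  rw [norm_eq]
  simp only [W0, one_mul, coef_down]

theorem norm_down_le (a : WA d s) : ‖down a‖ ≤ ‖a‖ := by
  rw [norm_down, norm_eq]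
  exact a.summable_norm.tsum_le_tsum
    (fun n => le_mul_of_one_le_left (norm_nonneg _) (one_le_W n)) a.summable

theorem ev_down (a : WA d s) (x : Fin d → ℝ) : ev (down a) x = ev a x := by
  unfold ev
  congr 1
  funext n
  exact coef_down a n

theorem down_sub (a b : WA d s) : down (a - b) = down a - down b := by
  ext n
  simp only [coef_down, coef_sub]

theorem F_down (m : ℕ) (a : WA d s) : F m (down a) = down (F m a) := by
  apply ev_injective
  intro x
  rw [ev_F, ev_down, ev_down, ev_F]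

theorem norm_WAev_le (a : WA d s) (x : Fin d → ℝ) : ‖ev a x‖ ≤ ∑' n, ‖coef a n‖ := by
  unfold ev series
  have h : Summable fun n => ‖coef a n * expi n x‖ := by
    simpa only [norm_mul, norm_expi, mul_one] using a.summable_norm
  refine (norm_tsum_le_tsum_norm h).trans (le_of_eq ?_)
  simp only [norm_mul, norm_expi, mul_one]

theorem curve_down {m : ℕ} {T : ℝ} {u : ℝ → WA d s} (hu : Curve m T u) :
    Curve m T (fun t => down (u t)) where
  cont t ht := by
    rw [ContinuousWithinAt, tendsto_iff_norm_sub_tendsto_zero]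
    have h1 := tendsto_iff_norm_sub_tendsto_zero.1 (hu.cont t ht)
    refine squeeze_zero (fun s => norm_nonneg _) (fun s => ?_) h1
    rw [← down_sub]
    exact norm_down_le _
  eqn t ht n := by
    have h := hu.eqn t ht n
    simp only [F_down, coef_down]
    exact h

theorem curve_mono {m : ℕ} {T T' : ℝ} (h : T' ≤ T) {u : ℝ → WA d s} (hu : Curve m T u) :
    Curve m T' u where
  cont := hu.cont.mono (Icc_subset_Icc_right h)
  eqn t ht n := (hu.eqn t ⟨ht.1, ht.2.trans h⟩ n).mono (Icc_subset_Icc_right h)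

/-- A curve in the weighted Wiener algebra is a Sobolev solution. -/
theorem isSolution_of_curve {m : ℕ} {T : ℝ} {u : ℝ → WA d s} (hu : Curve m T u) :
    IsSolution d (2 * m + 1) s T (fun t => coef (u t)) := by
  refine isSolution_of hu.cont fun t ht n => (hu.eqn t ht n).congr_deriv ?_
  ring

/-- An `H^k` solution is an `H^j` solution, `j ≤ k`. -/
theorem isSolution_le {p j : ℕ} (hj : j ≤ k) {T : ℝ} {u : ℝ → Lat d → ℂ}
    (hu : IsSolution d p k T u) : IsSolution d p j T u := by
  have hw : ∀ (n : Lat d) (z : ℂ), (1 + sqNorm n) ^ j * ‖z‖ ^ 2 ≤ (1 + sqNorm n) ^ k * ‖z‖ ^ 2 := by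
    intro n z
    have := sqNorm_nonneg n
    gcongr
    linarith
  have hmem : ∀ a : Lat d → ℂ, MemSobolev k a → MemSobolev j a := fun a ha =>
    Summable.of_nonneg_of_le (fun n => mul_nonneg (weight_pos j n).le (sq_nonneg _))
      (fun n => hw n (a n)) ha
  refine ⟨fun t ht => hmem _ (hu.mem t ht), fun t ht => ?_, hu.eqn⟩
  refine squeeze_zero' (Eventually.of_forall fun s => sobolevSq_nonneg _) ?_ (hu.cont t ht)
  filter_upwards [self_mem_nhdsWithin] with s hs
  have h1 := mem_sub (hu.mem s hs) (hu.mem t ht)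
  exact (hmem _ h1).tsum_le_tsum (fun n => hw n _) h1

/-! ## Blow-up -/

/-- The curve `u` solves the equation in the weighted Wiener algebra on `[0,T)` and its
(unweighted) Wiener norm is unbounded on `[0,T)`. -/
structure Blow (m : ℕ) (T : ℝ) (u : ℝ → WA d s) : Prop where
  pos : 0 < T
  curve : ∀ T', 0 ≤ T' → T' < T → Curve m T' u
  unbdd : ∀ R : ℝ, ∃ t, 0 ≤ t ∧ t < T ∧ R < ∑' n, ‖coef (u t) n‖

/-- It is enough that the sup norm is unbounded. -/
theorem Blow.of_ev {m : ℕ} {T : ℝ} (hT : 0 < T) {u : ℝ → WA d s}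
    (hu : ∀ T', 0 ≤ T' → T' < T → Curve m T' u)
    (h : ∀ R : ℝ, ∃ t, 0 ≤ t ∧ t < T ∧ ∃ x, R < ‖ev (u t) x‖) : Blow m T u where
  pos := hT
  curve := hu
  unbdd R := by
    obtain ⟨t, h0, h1, x, hx⟩ := h R
    exact ⟨t, h0, h1, hx.trans_le (norm_WAev_le _ x)⟩

/-- Every `H^k` solution, `2k > d`, with the datum of a blow-up curve stops before `T`. -/
theorem Blow.lt {m : ℕ} (hk : d < 2 * k) {T : ℝ} {u : ℝ → WA d s} (hu : Blow m T u) {T₁ : ℝ}
    {v : ℝ → Lat d → ℂ} (hv : IsSolution d (2 * m + 1) k T₁ v) (h0 : v 0 = coef (u 0)) :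
    T₁ < T := by
  by_contra hT
  rw [not_lt] at hT
  have hcv := curve_of hk hv
  obtain ⟨R, hR⟩ := isCompact_Icc.exists_bound_of_continuousOn hcv.cont
  obtain ⟨t, ht0, htT, ht⟩ := hu.unbdd R
  have h1 := curve_down (hu.curve t ht0 htT)
  have h2 := curve_mono (htT.le.trans hT) hcv
  have h3 : down (u 0) = toWA (v 0) := by
    ext n
    rw [coef_down, coef_curve hk hv ⟨le_rfl, hu.pos.le.trans hT⟩, h0]
  have h4 : down (u t) = toWA (v t) := curve_unique h1 h2 h3 t ⟨ht0, le_rfl⟩
  have h5 := hR t ⟨ht0, htT.le.trans hT⟩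
  rw [← h4, norm_down] at h5
  linarith

/-- The lifespan in `H^k`, for every `k` with `2k > d`, is at most `T`. -/
theorem Blow.lifespan_le {m : ℕ} (hk : d < 2 * k) {T : ℝ} {u : ℝ → WA d s} (hu : Blow m T u) :
    lifespan d (2 * m + 1) k (coef (u 0)) ≤ ENNReal.ofReal T := by
  unfold lifespan
  refine iSup₂_le fun T₁ h => ?_
  obtain ⟨v, hv, h0⟩ := h
  have h1 := hu.lt hk hv h0
  rw [← ENNReal.ofReal_coe_nnreal]
  exact ENNReal.ofReal_le_ofReal h1.le

/-- For `d/2 < j ≤ s` the lifespan in `H^j` is exactly `T`. -/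
theorem Blow.lifespan_eq {m j : ℕ} (hj : d < 2 * j) (hjs : j ≤ s) {T : ℝ} {u : ℝ → WA d s}
    (hu : Blow m T u) : lifespan d (2 * m + 1) j (coef (u 0)) = ENNReal.ofReal T := by
  refine le_antisymm (hu.lifespan_le hj) ?_
  refine le_of_forall_lt fun c hc => ?_
  obtain ⟨T', rfl⟩ : ∃ T' : ℝ≥0, c = T' := ⟨c.toNNReal, (ENNReal.coe_toNNReal hc.ne_top).symm⟩
  have h1 : (T' : ℝ) < T := by
    rw [← ENNReal.ofReal_coe_nnreal, ENNReal.ofReal_lt_ofReal_iff hu.pos] at hc
    exact hc
  obtain ⟨T'', h2, h3⟩ := exists_between h1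
  have h4 : 0 ≤ T'' := T'.2.trans h2.le
  refine lt_of_lt_of_le (b := ENNReal.ofReal T'') ?_ ?_
  · rw [← ENNReal.ofReal_coe_nnreal]
    exact (ENNReal.ofReal_lt_ofReal_iff (T'.2.trans_lt h2)).2 h2
  · unfold lifespan
    refine le_iSup₂_of_le (NNReal.mk _ h4)
      ⟨_, isSolution_le hjs (isSolution_of_curve (hu.curve T'' h4 h3)), rfl⟩ ?_
    rw [ENNReal.ofReal, Real.toNNReal_of_nonneg h4]

end Vale.Agent.P139.BU
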