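import Mathlib

/-!
# P139 / BU : common definitions (architect: helper281)

Self-similar blow-up of `i u_t + Δ u = |u|^{2m} u` (so `p = 2m+1`, `a = 1/(2m)`).

* `IsProfile d m w Q` : `Q` is a smooth radial nowhere vanishing solution of
  `ΔQ + (i/2) y·∇Q + (w + i a) Q = |Q|^{2m} Q` with symbol bounds.
* `LL1, LL2` : the complexified linearised operator on pairs `(f,g)`.
* `IsMode` : the symmetry modes.
* `ModeStable` : no other eigenfunction / Jordan block with `Re λ ≥ 0`.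
* `RadAdm`, `RadSys`, `RadMode`, `RadStable` : the radial (mode `l`) version.
-/

open scoped ComplexConjugate ContDiff
open Complex

namespace Vale.Agent.P139.BU

/-- Euclidean space. -/
abbrev E (d : ℕ) : Type := EuclideanSpace ℝ (Fin d)

variable {d : ℕ}

/-- Partial derivative `∂_j f`. -/
noncomputable def pd (j : Fin d) (f : E d → ℂ) (x : E d) : ℂ :=
  fderiv ℝ f x (EuclideanSpace.single j (1 : ℝ))

/-- Laplacian. -/
noncomputable def lap (f : E d → ℂ) (x : E d) : ℂ := ∑ j, pd j (pd j f) x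

/-- `y · ∇ f`. -/
noncomputable def eul (f : E d → ℂ) (x : E d) : ℂ := fderiv ℝ f x x

/-- `|z|^{2m}` as a polynomial in `z, conj z`. -/
noncomputable def W1 (m : ℕ) (z : ℂ) : ℂ := (z * conj z) ^ m

/-- `|z|^{2m-2} z^2` as a polynomial in `z, conj z` (`m ≥ 1`). -/
noncomputable def W2 (m : ℕ) (z : ℂ) : ℂ := z ^ (m + 1) * conj z ^ (m - 1)

/-- The scaling exponent `a = 1/(p-1) = 1/(2m)`. -/
noncomputable def aa (m : ℕ) : ℝ := 1 / (2 * (m : ℝ))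

/-- Profile of a self-similar solution
`u(t,x) = (T-t)^{-a+iw} Q(x/√(T-t))`, `v = e^{-iwτ} Q`, `τ = -log (T-t)`. -/
structure IsProfile (d m : ℕ) (w : ℝ) (Q : E d → ℂ) : Prop where
  radial : ∃ h : ℝ → ℂ, ContDiff ℝ ∞ h ∧ ∀ x, Q x = h (‖x‖ ^ 2)
  eqn : ∀ x, lap Q x + (I / 2) * eul Q x + ((w : ℂ) + I * (aa m : ℂ)) * Q x
    = W1 m (Q x) * Q x
  ne_zero : ∀ x, Q x ≠ 0
  symbol : ∀ k : ℕ, ∃ C : ℝ, ∀ x,
    ‖iteratedFDeriv ℝ k Q x‖ ≤ C * (1 + ‖x‖) ^ (-(2 * aa m) - (k : ℝ))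

/-- First component of the complexified linearised operator. -/
noncomputable def LL1 (m : ℕ) (w : ℝ) (Q f g : E d → ℂ) (x : E d) : ℂ :=
  I * lap f x - (1 / 2) * eul f x - (aa m : ℂ) * f x + I * (w : ℂ) * f x
    - I * (((m : ℂ) + 1) * W1 m (Q x) * f x + (m : ℂ) * W2 m (Q x) * g x)

/-- Second component of the complexified linearised operator. -/
noncomputable def LL2 (m : ℕ) (w : ℝ) (Q f g : E d → ℂ) (x : E d) : ℂ :=
  -(I * lap g x) - (1 / 2) * eul g x - (aa m : ℂ) * g x - I * (w : ℂ) * g x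
    + I * (((m : ℂ) + 1) * W1 m (Q x) * g x + (m : ℂ) * conj (W2 m (Q x)) * f x)

/-- The phase mode `i Q` (eigenvalue `0`). -/
noncomputable def phaseMode (Q : E d → ℂ) (x : E d) : ℂ := I * Q x

/-- The time translation mode `(a-iw) Q + (1/2) y·∇Q` (eigenvalue `1`). -/
noncomputable def timeMode (m : ℕ) (w : ℝ) (Q : E d → ℂ) (x : E d) : ℂ :=
  ((aa m : ℂ) - I * (w : ℂ)) * Q x + (1 / 2) * eul Q x

/-- `(f,g)` is a combination of the symmetry modes with eigenvalue `lam`. -/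
def IsMode (m : ℕ) (w : ℝ) (Q : E d → ℂ) (lam : ℂ) (f g : E d → ℂ) : Prop :=
  (lam = 0 ∧ ∃ c : ℂ, ∀ x, f x = c * phaseMode Q x ∧ g x = c * conj (phaseMode Q x)) ∨
  (lam = 1 / 2 ∧ ∃ c : Fin d → ℂ, ∀ x, f x = ∑ j, c j * pd j Q x ∧
    g x = ∑ j, c j * conj (pd j Q x)) ∨
  (lam = 1 ∧ ∃ c : ℂ, ∀ x, f x = c * timeMode m w Q x ∧
    g x = c * conj (timeMode m w Q x)) ∨
  (∀ x, f x = 0 ∧ g x = 0)

/-- `f` is `C^K` with bounded derivatives up to order `K`. -/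
def BddC (K : ℕ) (f : E d → ℂ) : Prop :=
  ContDiff ℝ K f ∧ ∀ k ≤ K, ∃ C : ℝ, ∀ x, ‖iteratedFDeriv ℝ k f x‖ ≤ C

/-- Mode stability of the profile: in `Re λ ≥ 0` there are only the symmetry modes,
and they have no Jordan blocks. -/
structure ModeStable (m K : ℕ) (w : ℝ) (Q : E d → ℂ) : Prop where
  eig : ∀ lam : ℂ, 0 ≤ lam.re → ∀ f g : E d → ℂ, BddC K f → BddC K g →
    (∀ x, LL1 m w Q f g x = lam * f x) → (∀ x, LL2 m w Q f g x = lam * g x) →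
    IsMode m w Q lam f g
  jordan : ∀ lam : ℂ, 0 ≤ lam.re → ∀ f g f0 g0 : E d → ℂ, BddC K f → BddC K g →
    IsMode m w Q lam f0 g0 →
    (∀ x, LL1 m w Q f g x = lam * f x + f0 x) → (∀ x, LL2 m w Q f g x = lam * g x + g0 x) →
    ∀ x, f0 x = 0 ∧ g0 x = 0

/-! ### Radial version -/

/-- Radial Laplacian in dimension `d` on the spherical mode `l`. -/
noncomputable def lapl (d l : ℕ) (F : ℝ → ℂ) (r : ℝ) : ℂ :=
  deriv (deriv F) r + (((d : ℂ) - 1) / r) * deriv F r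
    - ((l : ℂ) * ((l : ℂ) + d - 2) / (r : ℂ) ^ 2) * F r

/-- First component of the radial linearised operator; `q` is the radial profile. -/
noncomputable def RL1 (d m l : ℕ) (w : ℝ) (q F G : ℝ → ℂ) (r : ℝ) : ℂ :=
  I * lapl d l F r - (r / 2) * deriv F r - (aa m : ℂ) * F r + I * (w : ℂ) * F r
    - I * (((m : ℂ) + 1) * W1 m (q r) * F r + (m : ℂ) * W2 m (q r) * G r)

/-- Second component of the radial linearised operator. -/
noncomputable def RL2 (d m l : ℕ) (w : ℝ) (q F G : ℝ → ℂ) (r : ℝ) : ℂ :=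
  -(I * lapl d l G r) - (r / 2) * deriv G r - (aa m : ℂ) * G r - I * (w : ℂ) * G r
    + I * (((m : ℂ) + 1) * W1 m (q r) * G r + (m : ℂ) * conj (W2 m (q r)) * F r)

/-- Admissible radial functions: `C^K` on `(0,∞)`, bounded near `0`, bounded derivatives up to
order `K` near infinity. -/
structure RadAdm (K : ℕ) (F : ℝ → ℂ) : Prop where
  smooth : ContDiffOn ℝ K F (Set.Ioi 0)
  bdd0 : ∃ C : ℝ, ∀ r ∈ Set.Ioo (0 : ℝ) 1, ‖F r‖ ≤ C
  bddinf : ∀ k ≤ K, ∃ C : ℝ, ∀ r : ℝ, 1 ≤ r → ‖iteratedDeriv k F r‖ ≤ C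

/-- Radial symmetry modes. -/
def RadMode (m l : ℕ) (w : ℝ) (q : ℝ → ℂ) (lam : ℂ) (F G : ℝ → ℂ) : Prop :=
  (l = 0 ∧ lam = 0 ∧ ∃ c : ℂ, ∀ r > 0, F r = c * (I * q r) ∧ G r = c * conj (I * q r)) ∨
  (l = 1 ∧ lam = 1 / 2 ∧ ∃ c : ℂ, ∀ r > 0, F r = c * deriv q r ∧ G r = c * conj (deriv q r)) ∨
  (l = 0 ∧ lam = 1 ∧ ∃ c : ℂ, ∀ r > 0,
    F r = c * (((aa m : ℂ) - I * (w : ℂ)) * q r + (r / 2) * deriv q r) ∧
    G r = c * conj (((aa m : ℂ) - I * (w : ℂ)) * q r + (r / 2) * deriv q r)) ∨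
  (∀ r > 0, F r = 0 ∧ G r = 0)

/-- Radial mode stability (all spherical modes `l`). -/
structure RadStable (d m K : ℕ) (w : ℝ) (q : ℝ → ℂ) : Prop where
  eig : ∀ l : ℕ, ∀ lam : ℂ, 0 ≤ lam.re → ∀ F G : ℝ → ℂ, RadAdm K F → RadAdm K G →
    (∀ r > 0, RL1 d m l w q F G r = lam * F r) →
    (∀ r > 0, RL2 d m l w q F G r = lam * G r) → RadMode m l w q lam F G
  jordan : ∀ l : ℕ, ∀ lam : ℂ, 0 ≤ lam.re → ∀ F G F0 G0 : ℝ → ℂ, RadAdm K F → RadAdm K G →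
    RadMode m l w q lam F0 G0 →
    (∀ r > 0, RL1 d m l w q F G r = lam * F r + F0 r) →
    (∀ r > 0, RL2 d m l w q F G r = lam * G r + G0 r) → ∀ r > 0, F0 r = 0 ∧ G0 r = 0

end Vale.Agent.P139.BU
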