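import Vale.Agent.P139.A.Defs
import Vale.Agent.P139.BU.Core

/-!
# P139 / BU : interface of the nonlinear block (architect: helper281)
-/

open scoped ENNReal

namespace Vale.Agent.P139.BU

open Vale.Agent.P139.A

/-- There is an open ball (weighted Wiener norm on the torus) of data with finite lifespan
(in every `H^k`, `k > d/2`). -/
def BallBlowup (d m : ℕ) : Prop :=
  ∃ (s : ℕ) (v0 : (Fin d → ℤ) → ℂ) (r T₁ : ℝ), 0 < r ∧
    (Summable fun n => (1 + ‖n‖) ^ s * ‖v0 n‖) ∧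
    ∀ a : (Fin d → ℤ) → ℂ, (Summable fun n => (1 + ‖n‖) ^ s * ‖a n - v0 n‖) →
      ∑' n, (1 + ‖n‖) ^ s * ‖a n - v0 n‖ < r →
      ∀ k : ℕ, d < 2 * k → lifespan d (2 * m + 1) k a ≤ ENNReal.ofReal T₁

/-- Output of the profile + spectral blocks `[P],[I],[S],[A]` (`K` may be as large as wanted). -/
def StableProfile (d : ℕ) : Prop :=
  ∃ m₀ : ℕ, ∀ m : ℕ, m₀ ≤ m → ∃ (K : ℕ) (w : ℝ) (Q : E d → ℂ), IsProfile d m w Q ∧
    ModeStable (d := d) m K w Q

/-- Output of the blocks `[W],[F],[N]`. -/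
def ProfileBlowup (d m : ℕ) : Prop :=
  ∀ (K : ℕ) (w : ℝ) (Q : E d → ℂ), IsProfile d m w Q → ModeStable (d := d) m K w Q →
    BallBlowup d m

end Vale.Agent.P139.BU
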