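import Vale.Agent.P139.BU.TPos

/-! # P139, final assembly: from the two blocks (a stable profile for all large `m`, and blow-up
from a stable profile) to the statement of the hand-in. -/

open Set Metric Filter Topology MeasureTheory ProbabilityTheory
open scoped NNReal ENNReal ComplexConjugate

namespace Vale.Agent.P139.BU

open Vale.Agent.P139.A Vale.Agent.P139.A.WA Vale.Agent.P139.H836 Vale.Agent.P139.H203

/-- The quantitative conclusion for one dimension: for all large `m`, with `p = 2m+1`, there are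
`α₁` and `T₁` such that for every `α > α₁` the lifespan is, with positive probability, a number
`T ≤ T₁` that does not depend on the Sobolev index. -/
theorem quant_of_blocks {d : ℕ} (h1 : StableProfile d)
    (h2 : ∀ m : ℕ, 1 ≤ m → ProfileBlowup d m) :
    ∃ m₀ : ℕ, ∀ m : ℕ, m₀ ≤ m → ∃ α₁ T₁ : ℝ, ∀ α : ℝ, α₁ < α →
      ∀ (Ω : Type) [MeasurableSpace Ω] (P : Measure Ω) [IsProbabilityMeasure P]
        (g : (Fin d → ℤ) → Ω → ℂ), (∀ n, Measurable (g n)) → iIndepFun g P →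
        (∀ n, P.map (g n) = stdComplexGaussian) →
        0 < P {ω | ∃ T : ℝ, 0 < T ∧ T ≤ T₁ ∧
          (∀ k : ℕ, d < 2 * k → (k : ℝ) + d < α →
            lifespan d (2 * m + 1) k (datum g α ω) = ENNReal.ofReal T) ∧
          ∀ k : ℕ, d < 2 * k →
            lifespan d (2 * m + 1) k (datum g α ω) ≤ ENNReal.ofReal T} := by
  obtain ⟨m₀, H⟩ := h1
  refine ⟨max m₀ 1, fun m hm => ?_⟩
  obtain ⟨K, w, Q, hP, hS⟩ := H m (le_trans (le_max_left _ _) hm)
  obtain ⟨α₁, T₁, hB⟩ :=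
    BallBlowup.prob_time (h2 m (le_trans (le_max_right _ _) hm) K w Q hP hS)
  exact ⟨α₁, T₁, fun α hα Ω _ P _ g hgm hind hg => hB α hα P g hgm hind hg⟩

/-- The negation of Q1, written out. -/
theorem not_Q1_unfolded (h : ¬ Q1) :
    ¬ ∀ d p : ℕ, Odd p → 3 ≤ p → 1 < (d : ℝ) / 2 - 2 / ((p : ℝ) - 1) →
      ∃ α₀ : ℝ, ∀ α : ℝ, α₀ < α →
        ∀ (Ω : Type) [MeasurableSpace Ω] (P : Measure Ω) [IsProbabilityMeasure P]
          (g : (Fin d → ℤ) → Ω → ℂ), (∀ n, Measurable (g n)) → iIndepFun g P →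
          (∀ n, P.map (g n) = stdComplexGaussian) →
          ∀ k : ℕ, d < 2 * k → (k : ℝ) < α - d / 2 →
            ∀ᵐ ω ∂P, lifespan d p k (datum g α ω) = ⊤ := h

theorem final_of_blocks (h1 : StableProfile 13)
    (h2 : ∀ m : ℕ, 1 ≤ m → ProfileBlowup 13 m) :
    (∃ m₀ : ℕ, ∀ m : ℕ, m₀ ≤ m → ∃ α₁ T₁ : ℝ, ∀ α : ℝ, α₁ < α →
      ∀ (Ω : Type) [MeasurableSpace Ω] (P : Measure Ω) [IsProbabilityMeasure P]
        (g : (Fin 13 → ℤ) → Ω → ℂ), (∀ n, Measurable (g n)) → iIndepFun g P →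
        (∀ n, P.map (g n) = stdComplexGaussian) →
        0 < P {ω | ∃ T : ℝ, 0 < T ∧ T ≤ T₁ ∧
          (∀ k : ℕ, 13 < 2 * k → (k : ℝ) + 13 < α →
            lifespan 13 (2 * m + 1) k (datum g α ω) = ENNReal.ofReal T) ∧
          ∀ k : ℕ, 13 < 2 * k →
            lifespan 13 (2 * m + 1) k (datum g α ω) ≤ ENNReal.ofReal T}) ∧
    ¬ ∀ d p : ℕ, Odd p → 3 ≤ p → 1 < (d : ℝ) / 2 - 2 / ((p : ℝ) - 1) →
      ∃ α₀ : ℝ, ∀ α : ℝ, α₀ < α →
        ∀ (Ω : Type) [MeasurableSpace Ω] (P : Measure Ω) [IsProbabilityMeasure P]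
          (g : (Fin d → ℤ) → Ω → ℂ), (∀ n, Measurable (g n)) → iIndepFun g P →
          (∀ n, P.map (g n) = stdComplexGaussian) →
          ∀ k : ℕ, d < 2 * k → (k : ℝ) < α - d / 2 →
            ∀ᵐ ω ∂P, lifespan d p k (datum g α ω) = ⊤ :=
  ⟨by exact_mod_cast quant_of_blocks h1 h2,
    not_Q1_unfolded (not_Q1_of_blocks (by norm_num) h1 h2)⟩

end Vale.Agent.P139.BU
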