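import Vale.Agent.P139.BU.ModeEq

/-!
# P139 / BU : mode stability modulo the space of the symmetry modes
-/

open scoped ComplexConjugate ContDiff
open Complex

namespace Vale.Agent.P139.BU

variable {d m K : ℕ} {w : ℝ} {Q f g f' g' : E d → ℂ} {lam : ℂ}

theorem BddC.add (hf : BddC K f) (hg : BddC K g) : BddC K (fun x => f x + g x) := by
  refine ⟨hf.1.add hg.1, fun k hk => ?_⟩
  obtain ⟨C, hC⟩ := hf.2 k hk
  obtain ⟨C', hC'⟩ := hg.2 k hk
  refine ⟨C + C', fun x => ?_⟩
  have h1 : ContDiffAt ℝ k f x := (hf.1.of_le (by exact_mod_cast hk)).contDiffAt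
  have h2 : ContDiffAt ℝ k g x := (hg.1.of_le (by exact_mod_cast hk)).contDiffAt
  rw [show (fun x => f x + g x) = f + g from rfl, iteratedFDeriv_add_apply h1 h2]
  exact (norm_add_le _ _).trans (add_le_add (hC x) (hC' x))

theorem BddC.cmul (c : ℂ) (hf : BddC K f) : BddC K (fun x => c * f x) := by
  refine ⟨contDiff_const.mul hf.1, fun k hk => ?_⟩
  obtain ⟨C, hC⟩ := hf.2 k hk
  refine ⟨‖c‖ * C, fun x => ?_⟩
  have h1 : ContDiffAt ℝ k f x := (hf.1.of_le (by exact_mod_cast hk)).contDiffAt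
  rw [show (fun x => c * f x) = c • f from rfl, iteratedFDeriv_const_smul_apply h1, norm_smul]
  exact mul_le_mul_of_nonneg_left (hC x) (norm_nonneg _)

theorem bddC_zero : BddC K (fun _ : E d => (0 : ℂ)) := by
  refine ⟨contDiff_const, fun k _ => ⟨0, fun x => ?_⟩⟩
  rw [iteratedFDeriv_fun_zero]
  simp

theorem BddC.sum {ι : Type*} (s : Finset ι) (F : ι → E d → ℂ) (hF : ∀ i ∈ s, BddC K (F i)) :
    BddC K (fun x => ∑ i ∈ s, F i x) := by
  classical
  induction s using Finset.induction_on with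
  | empty => simpa using bddC_zero
  | insert i s hi ih =>
    simp only [Finset.sum_insert hi]
    exact (hF i (Finset.mem_insert_self _ _)).add
      (ih fun j hj => hF j (Finset.mem_insert_of_mem hj))

theorem BddC.conj (hf : BddC K f) : BddC K (fun x => conj (f x)) := by
  refine ⟨(Complex.conjCLE : ℂ ≃L[ℝ] ℂ).contDiff.comp hf.1, fun k hk => ?_⟩
  obtain ⟨C, hC⟩ := hf.2 k hk
  refine ⟨C, fun x => ?_⟩
  have h := Complex.conjLIE.norm_iteratedFDeriv_comp_left (𝕜 := ℝ) f x (i := k)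
  calc _ = ‖iteratedFDeriv ℝ k f x‖ := h
    _ ≤ C := hC x

theorem rpow_bound (a : ℝ) (ha : 0 ≤ a) (x : E d) (k : ℕ) :
    (1 + ‖x‖) ^ (-(2 * a) - (k : ℝ)) ≤ 1 := by
  apply Real.rpow_le_one_of_one_le_of_nonpos
  · linarith [norm_nonneg x]
  · have : (0 : ℝ) ≤ k := Nat.cast_nonneg k
    linarith

theorem aa_nonneg : 0 ≤ aa m := by unfold aa; positivity

theorem IsProfile.bdd (h : IsProfile d m w Q) (k : ℕ) :
    ∃ C : ℝ, 0 ≤ C ∧ ∀ x, ‖iteratedFDeriv ℝ k Q x‖ ≤ C := by
  obtain ⟨C, hC⟩ := h.symbol k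
  have hC0 : 0 ≤ C := by
    have := (norm_nonneg _).trans (hC 0)
    simpa using this
  exact ⟨C, hC0, fun x => (hC x).trans (mul_le_of_le_one_right hC0 (rpow_bound _ aa_nonneg x k))⟩

theorem IsProfile.bdd' (h : IsProfile d m w Q) (k : ℕ) :
    ∃ C : ℝ, 0 ≤ C ∧ ∀ x, ‖iteratedFDeriv ℝ (k + 1) Q x‖ * ‖x‖ ≤ C := by
  obtain ⟨C, hC⟩ := h.symbol (k + 1)
  have hC0 : 0 ≤ C := by
    have := (norm_nonneg _).trans (hC 0)
    simpa using this
  refine ⟨C, hC0, fun x => ?_⟩
  have h1 : (0 : ℝ) < 1 + ‖x‖ := by linarith [norm_nonneg x]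
  have h2 : (1 + ‖x‖) ^ (-(2 * aa m) - ((k + 1 : ℕ) : ℝ)) * ‖x‖ ≤ 1 := by
    have e : (1 + ‖x‖) ^ (-(2 * aa m) - ((k + 1 : ℕ) : ℝ))
        = (1 + ‖x‖) ^ (-(2 * aa m) - (k : ℝ)) * (1 + ‖x‖)⁻¹ := by
      rw [← Real.rpow_neg_one, ← Real.rpow_add h1]
      congr 1
      push_cast
      ring
    rw [e, mul_assoc]
    have h3 : (1 + ‖x‖)⁻¹ * ‖x‖ ≤ 1 := by
      rw [inv_mul_le_iff₀ h1]
      linarith [norm_nonneg x]
    have h4 : 0 ≤ (1 + ‖x‖)⁻¹ * ‖x‖ := by positivity
    have h5 := rpow_bound (aa m) aa_nonneg x k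
    exact mul_le_one₀ h5 h4 h3
  calc ‖iteratedFDeriv ℝ (k + 1) Q x‖ * ‖x‖
      ≤ (C * (1 + ‖x‖) ^ (-(2 * aa m) - ((k + 1 : ℕ) : ℝ))) * ‖x‖ :=
        mul_le_mul_of_nonneg_right (hC x) (norm_nonneg _)
    _ = C * ((1 + ‖x‖) ^ (-(2 * aa m) - ((k + 1 : ℕ) : ℝ)) * ‖x‖) := by ring
    _ ≤ C := mul_le_of_le_one_right hC0 h2

theorem IsProfile.bddC (h : IsProfile d m w Q) : BddC K Q :=
  ⟨h.smooth.of_le (by exact_mod_cast le_top), fun k _ => by
    obtain ⟨C, _, hC⟩ := h.bdd k; exact ⟨C, hC⟩⟩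

theorem IsProfile.bddC_pd (h : IsProfile d m w Q) (j : Fin d) : BddC K (pd j Q) := by
  refine ⟨(contDiff_pd h.smooth j).of_le (by exact_mod_cast le_top), fun k _ => ?_⟩
  obtain ⟨C, hC0, hC⟩ := h.bdd (k + 1)
  refine ⟨C * ‖(EuclideanSpace.single j (1 : ℝ) : E d)‖, fun x => ?_⟩
  have h1 : ContDiff ℝ k (fderiv ℝ Q) :=
    (h.smooth.fderiv_right (m := ∞) (by simp)).of_le (by exact_mod_cast le_top)
  have h2 := norm_iteratedFDeriv_clm_apply_const (𝕜 := ℝ)
    (c := (EuclideanSpace.single j (1 : ℝ) : E d)) (x := x) (n := k) (h1.contDiffAt (x := x)) le_rfl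
  refine h2.trans ?_
  rw [norm_iteratedFDeriv_fderiv, mul_comm]
  exact mul_le_mul_of_nonneg_right (hC x) (norm_nonneg _)

theorem norm_iteratedFDeriv_id_le (x : E d) (n : ℕ) :
    ‖iteratedFDeriv ℝ n (fun y : E d => y) x‖ ≤ if n = 0 then ‖x‖ else 1 := by
  rcases n with _ | n
  · simp
  · rw [if_neg (by omega), ← norm_iteratedFDeriv_fderiv]
    have e : fderiv ℝ (fun y : E d => y) = fun _ => ContinuousLinearMap.id ℝ (E d) := by
      funext y
      exact fderiv_fun_id
    rw [e]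
    rcases n with _ | n
    · rw [norm_iteratedFDeriv_zero]
      exact ContinuousLinearMap.norm_id_le
    · rw [iteratedFDeriv_const_of_ne (by omega)]
      simp

theorem IsProfile.bddC_eul (h : IsProfile d m w Q) : BddC K (eul Q) := by
  refine ⟨(contDiff_eul h.smooth).of_le (by exact_mod_cast le_top), fun k _ => ?_⟩
  choose C hC0 hC using h.bdd
  choose C' hC0' hC' using h.bdd'
  refine ⟨∑ i ∈ Finset.range (k + 1), (k.choose i : ℝ) * (C (i + 1) + C' i), fun x => ?_⟩
  have h1 : ContDiff ℝ k (fderiv ℝ Q) :=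
    (h.smooth.fderiv_right (m := ∞) (by simp)).of_le (by exact_mod_cast le_top)
  have h2 := norm_iteratedFDeriv_clm_apply (𝕜 := ℝ) (f := fderiv ℝ Q)
    (g := fun y : E d => y) (N := (k : WithTop ℕ∞)) h1 contDiff_id x (n := k) le_rfl
  refine h2.trans (Finset.sum_le_sum fun i hi => ?_)
  rw [norm_iteratedFDeriv_fderiv, mul_assoc]
  refine mul_le_mul_of_nonneg_left ?_ (Nat.cast_nonneg _)
  have h3 := norm_iteratedFDeriv_id_le x (k - i)
  have h4 : ‖iteratedFDeriv ℝ (i + 1) Q x‖ ≤ C (i + 1) := hC (i + 1) x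
  split_ifs at h3 with h5
  · calc _ ≤ ‖iteratedFDeriv ℝ (i + 1) Q x‖ * ‖x‖ :=
        mul_le_mul_of_nonneg_left h3 (norm_nonneg _)
      _ ≤ C' i := hC' i x
      _ ≤ _ := by linarith [hC0 (i + 1)]
  · calc _ ≤ ‖iteratedFDeriv ℝ (i + 1) Q x‖ * 1 :=
        mul_le_mul_of_nonneg_left h3 (norm_nonneg _)
      _ ≤ C (i + 1) + C' i := by linarith [hC0' i]

theorem IsProfile.bddC_time (h : IsProfile d m w Q) : BddC K (timeMode m w Q) :=
  (h.bddC.cmul _).add (h.bddC_eul.cmul _)

/-- The symmetry modes have bounded derivatives. -/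
theorem IsMode.bddC (h : IsProfile d m w Q) (H : IsMode m w Q lam f g) :
    BddC K f ∧ BddC K g := by
  rcases H with ⟨_, c, hc⟩ | ⟨_, c, hc⟩ | ⟨_, c, hc⟩ | hc
  · rw [show f = fun x => c * (I * Q x) from funext fun x => (hc x).1,
      show g = fun x => c * conj (phaseMode Q x) from funext fun x => (hc x).2]
    exact ⟨(h.bddC.cmul I).cmul c, BddC.cmul c (BddC.conj (h.bddC.cmul I))⟩
  · rw [show f = fun x => ∑ j, c j * pd j Q x from funext fun x => (hc x).1,
      show g = fun x => ∑ j, c j * conj (pd j Q x) from funext fun x => (hc x).2]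
    exact ⟨BddC.sum _ _ fun j _ => (h.bddC_pd j).cmul _,
      BddC.sum _ _ fun j _ => ((h.bddC_pd j).conj).cmul _⟩
  · rw [show f = fun x => c * timeMode m w Q x from funext fun x => (hc x).1,
      show g = fun x => c * conj (timeMode m w Q x) from funext fun x => (hc x).2]
    exact ⟨h.bddC_time.cmul c, h.bddC_time.conj.cmul c⟩
  · rw [show f = fun _ => 0 from funext fun x => (hc x).1,
      show g = fun _ => 0 from funext fun x => (hc x).2]
    exact ⟨bddC_zero, bddC_zero⟩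

/-- The symmetry modes are smooth. -/
theorem IsMode.contDiff (h : IsProfile d m w Q) (H : IsMode m w Q lam f g) :
    ContDiff ℝ ∞ f ∧ ContDiff ℝ ∞ g :=
  ⟨contDiff_infty.mpr fun n => (H.bddC (K := n) h).1.1,
    contDiff_infty.mpr fun n => (H.bddC (K := n) h).2.1⟩

/-! ### Linearity for `C^2` functions -/

theorem fderiv_add2 (hf : ContDiff ℝ 2 f) (hg : ContDiff ℝ 2 g) (x v : E d) :
    fderiv ℝ (fun y => f y + g y) x v = fderiv ℝ f x v + fderiv ℝ g x v := by
  rw [fderiv_fun_add ((hf.differentiable (by norm_num)) x) ((hg.differentiable (by norm_num)) x)]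
  rfl

theorem fderiv_cmul2 (c : ℂ) (hf : ContDiff ℝ 2 f) (x v : E d) :
    fderiv ℝ (fun y => c * f y) x v = c * fderiv ℝ f x v := by
  rw [fderiv_const_mul ((hf.differentiable (by norm_num)) x)]
  rfl

theorem contDiff_pd1 (hf : ContDiff ℝ 2 f) (j : Fin d) : ContDiff ℝ 1 (pd j f) := by
  unfold pd
  exact (hf.fderiv_right (m := 1) (by norm_num)).clm_apply contDiff_const

theorem lap_add2 (hf : ContDiff ℝ 2 f) (hg : ContDiff ℝ 2 g) (x : E d) :
    lap (fun y => f y + g y) x = lap f x + lap g x := by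
  unfold lap
  rw [← Finset.sum_add_distrib]
  refine Finset.sum_congr rfl fun j _ => ?_
  have e : pd j (fun y => f y + g y) = fun y => pd j f y + pd j g y :=
    funext fun y => fderiv_add2 hf hg y _
  rw [e]
  have h1 := ((contDiff_pd1 hf j).differentiable (by norm_num)) x
  have h2 := ((contDiff_pd1 hg j).differentiable (by norm_num)) x
  change fderiv ℝ (fun y => pd j f y + pd j g y) x _ = _
  rw [fderiv_fun_add h1 h2]
  rfl

theorem lap_cmul2 (c : ℂ) (hf : ContDiff ℝ 2 f) (x : E d) :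
    lap (fun y => c * f y) x = c * lap f x := by
  unfold lap
  rw [Finset.mul_sum]
  refine Finset.sum_congr rfl fun j _ => ?_
  have e : pd j (fun y => c * f y) = fun y => c * pd j f y :=
    funext fun y => fderiv_cmul2 c hf y _
  rw [e]
  change fderiv ℝ (fun y => c * pd j f y) x _ = _
  rw [fderiv_const_mul (((contDiff_pd1 hf j).differentiable (by norm_num)) x)]
  rfl

/-- `LL1 (f + c f', g + c g') = LL1 (f,g) + c LL1 (f',g')` on `C^2` functions. -/
theorem LL1_lin (c : ℂ) (hf : ContDiff ℝ 2 f) (hf' : ContDiff ℝ 2 f') (x : E d) :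
    LL1 m w Q (fun y => f y + c * f' y) (fun y => g y + c * g' y) x
      = LL1 m w Q f g x + c * LL1 m w Q f' g' x := by
  have hc : ContDiff ℝ 2 (fun y => c * f' y) := contDiff_const.mul hf'
  unfold LL1
  have e1 : eul (fun y => f y + c * f' y) x = eul f x + c * eul f' x := by
    change fderiv ℝ _ x x = _
    rw [fderiv_add2 hf hc, fderiv_cmul2 c hf']
    rfl
  rw [lap_add2 hf hc, lap_cmul2 c hf', e1]
  ring

theorem LL2_lin (c : ℂ) (hg : ContDiff ℝ 2 g) (hg' : ContDiff ℝ 2 g') (x : E d) :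
    LL2 m w Q (fun y => f y + c * f' y) (fun y => g y + c * g' y) x
      = LL2 m w Q f g x + c * LL2 m w Q f' g' x := by
  have hc : ContDiff ℝ 2 (fun y => c * g' y) := contDiff_const.mul hg'
  unfold LL2
  have e1 : eul (fun y => g y + c * g' y) x = eul g x + c * eul g' x := by
    change fderiv ℝ _ x x = _
    rw [fderiv_add2 hg hc, fderiv_cmul2 c hg']
    rfl
  rw [lap_add2 hg hc, lap_cmul2 c hg', e1]
  ring

theorem pd_zero (j : Fin d) : pd j (fun _ : E d => (0 : ℂ)) = fun _ => 0 := by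
  funext x
  simp [pd]

theorem lap_zero (x : E d) : lap (fun _ : E d => (0 : ℂ)) x = 0 := by
  simp only [lap, pd_zero, Finset.sum_const_zero]

theorem eul_zero (x : E d) : eul (fun _ : E d => (0 : ℂ)) x = 0 := by simp [eul]

/-! ### The symmetry modes are eigenvectors -/

theorem LL_sum {ι : Type*} (s : Finset ι) (F G : ι → E d → ℂ) (c : ι → ℂ)
    (hF : ∀ i ∈ s, ContDiff ℝ 2 (F i)) (hG : ∀ i ∈ s, ContDiff ℝ 2 (G i)) (x : E d) :
    LL1 m w Q (fun y => ∑ i ∈ s, c i * F i y) (fun y => ∑ i ∈ s, c i * G i y) x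
      = ∑ i ∈ s, c i * LL1 m w Q (F i) (G i) x ∧
    LL2 m w Q (fun y => ∑ i ∈ s, c i * F i y) (fun y => ∑ i ∈ s, c i * G i y) x
      = ∑ i ∈ s, c i * LL2 m w Q (F i) (G i) x := by
  classical
  induction s using Finset.induction_on with
  | empty =>
    simp only [Finset.sum_empty]
    unfold LL1 LL2
    rw [lap_zero, eul_zero]
    constructor <;> ring
  | insert i s hi ih =>
    have ih' := ih (fun j hj => hF j (Finset.mem_insert_of_mem hj))
      (fun j hj => hG j (Finset.mem_insert_of_mem hj))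
    have hs1 : ContDiff ℝ 2 (fun y => ∑ i ∈ s, c i * F i y) :=
      ContDiff.sum fun j hj => contDiff_const.mul (hF j (Finset.mem_insert_of_mem hj))
    have hs2 : ContDiff ℝ 2 (fun y => ∑ i ∈ s, c i * G i y) :=
      ContDiff.sum fun j hj => contDiff_const.mul (hG j (Finset.mem_insert_of_mem hj))
    have e1 : (fun y => ∑ j ∈ insert i s, c j * F j y)
        = fun y => (∑ j ∈ s, c j * F j y) + c i * F i y := by
      funext y; rw [Finset.sum_insert hi, add_comm]
    have e2 : (fun y => ∑ j ∈ insert i s, c j * G j y)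
        = fun y => (∑ j ∈ s, c j * G j y) + c i * G i y := by
      funext y; rw [Finset.sum_insert hi, add_comm]
    rw [e1, e2, LL1_lin (c i) hs1 (hF i (Finset.mem_insert_self _ _)),
      LL2_lin (c i) hs2 (hG i (Finset.mem_insert_self _ _)), ih'.1, ih'.2,
      Finset.sum_insert hi, Finset.sum_insert hi]
    constructor <;> ring

/-- The symmetry modes are exact eigenvectors. -/
theorem IsMode.eigen (hm : 1 ≤ m) (h : IsProfile d m w Q) (H : IsMode m w Q lam f g) :
    (∀ x, LL1 m w Q f g x = lam * f x) ∧ (∀ x, LL2 m w Q f g x = lam * g x) := by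
  have two : ∀ {F : E d → ℂ}, ContDiff ℝ ∞ F → ContDiff ℝ 2 F := fun hF =>
    hF.of_le (WithTop.coe_le_coe.mpr le_top)
  rcases H with ⟨hl, c, hc⟩ | ⟨hl, c, hc⟩ | ⟨hl, c, hc⟩ | hc
  · subst hl
    have hp : ContDiff ℝ ∞ (phaseMode Q) := contDiff_const.mul h.smooth
    rw [show f = fun x => c * phaseMode Q x from funext fun x => (hc x).1,
      show g = fun x => c * conj (phaseMode Q x) from funext fun x => (hc x).2]
    constructor
    · intro x
      rw [LL1_cmul c hp, LL1_phase hm h]; ring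
    · intro x
      rw [LL2_cmul c (contDiff_conj hp), LL2_conj, LL1_phase hm h]; simp
  · subst hl
    rw [show f = fun x => ∑ j, c j * pd j Q x from funext fun x => (hc x).1,
      show g = fun x => ∑ j, c j * conj (pd j Q x) from funext fun x => (hc x).2]
    have hs := fun x => LL_sum (m := m) (w := w) (Q := Q) Finset.univ (fun j => pd j Q)
      (fun j y => conj (pd j Q y)) c (fun j _ => two (contDiff_pd h.smooth j))
      (fun j _ => two (contDiff_conj (contDiff_pd h.smooth j))) x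
    constructor
    · intro x
      rw [(hs x).1, Finset.mul_sum]
      refine Finset.sum_congr rfl fun j _ => ?_
      rw [LL1_pd hm h j]; ring
    · intro x
      rw [(hs x).2, Finset.mul_sum]
      refine Finset.sum_congr rfl fun j _ => ?_
      rw [LL2_conj, LL1_pd hm h j]
      simp only [map_mul, map_div₀, map_one, map_ofNat]
      ring
  · subst hl
    have hp : ContDiff ℝ ∞ (timeMode m w Q) :=
      (contDiff_const.mul h.smooth).add (contDiff_const.mul (contDiff_eul h.smooth))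
    rw [show f = fun x => c * timeMode m w Q x from funext fun x => (hc x).1,
      show g = fun x => c * conj (timeMode m w Q x) from funext fun x => (hc x).2]
    constructor
    · intro x
      rw [LL1_cmul c hp, LL1_time hm h]; ring
    · intro x
      rw [LL2_cmul c (contDiff_conj hp), LL2_conj, LL1_time hm h]; ring
  · rw [show f = fun _ => 0 from funext fun x => (hc x).1,
      show g = fun _ => 0 from funext fun x => (hc x).2]
    constructor <;> intro x
    · unfold LL1; rw [lap_zero, eul_zero]; ring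
    · unfold LL2; rw [lap_zero, eul_zero]; ring

theorem isMode_zero (lam : ℂ) : IsMode m w Q lam (fun _ => 0) (fun _ => 0) :=
  Or.inr (Or.inr (Or.inr fun _ => ⟨rfl, rfl⟩))

theorem IsMode.cmul (b : ℂ) (H : IsMode m w Q lam f g) :
    IsMode m w Q lam (fun x => b * f x) (fun x => b * g x) := by
  rcases H with ⟨hl, c, hc⟩ | ⟨hl, c, hc⟩ | ⟨hl, c, hc⟩ | hc
  · refine Or.inl ⟨hl, b * c, fun x => ?_⟩
    obtain ⟨h1, h2⟩ := hc x
    exact ⟨by linear_combination b * h1, by linear_combination b * h2⟩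
  · refine Or.inr (Or.inl ⟨hl, fun j => b * c j, fun x => ?_⟩)
    obtain ⟨h1, h2⟩ := hc x
    have e1 : ∑ j, (b * c j) * pd j Q x = b * ∑ j, c j * pd j Q x := by
      rw [Finset.mul_sum]; exact Finset.sum_congr rfl fun j _ => by ring
    have e2 : ∑ j, (b * c j) * conj (pd j Q x) = b * ∑ j, c j * conj (pd j Q x) := by
      rw [Finset.mul_sum]; exact Finset.sum_congr rfl fun j _ => by ring
    refine ⟨?_, ?_⟩
    · change b * f x = ∑ j, (b * c j) * pd j Q x
      rw [e1, h1]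
    · change b * g x = ∑ j, (b * c j) * conj (pd j Q x)
      rw [e2, h2]
  · refine Or.inr (Or.inr (Or.inl ⟨hl, b * c, fun x => ?_⟩))
    obtain ⟨h1, h2⟩ := hc x
    exact ⟨by linear_combination b * h1, by linear_combination b * h2⟩
  · refine Or.inr (Or.inr (Or.inr fun x => ?_))
    obtain ⟨h1, h2⟩ := hc x
    exact ⟨by linear_combination b * h1, by linear_combination b * h2⟩

/-- The (complex) span of the symmetry modes. -/
def InE (m : ℕ) (w : ℝ) (Q f g : E d → ℂ) : Prop :=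
  ∃ f0 g0 f1 g1 f2 g2 : E d → ℂ, IsMode m w Q 0 f0 g0 ∧ IsMode m w Q (1 / 2) f1 g1 ∧
    IsMode m w Q 1 f2 g2 ∧ ∀ x, f x = f0 x + f1 x + f2 x ∧ g x = g0 x + g1 x + g2 x

theorem BddC.mono_K {K' : ℕ} (h : BddC K' f) (hK : K ≤ K') : BddC K f :=
  ⟨h.1.of_le (by exact_mod_cast hK), fun k hk => h.2 k (hk.trans hK)⟩

theorem ModeStable.mono {K' : ℕ} (h : ModeStable (d := d) m K w Q) (hK : K ≤ K') :
    ModeStable (d := d) m K' w Q :=
  ⟨fun lam hl f g hf hg => h.eig lam hl f g (hf.mono_K hK) (hg.mono_K hK),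
    fun lam hl f g f0 g0 hf hg => h.jordan lam hl f g f0 g0 (hf.mono_K hK) (hg.mono_K hK)⟩

/-- Removing a mode with a different eigenvalue from the right side. -/
theorem remove_mode (hm : 1 ≤ m) (hP : IsProfile d m w Q) (hK : 2 ≤ K) {mu : ℂ}
    {e e' r r' : E d → ℂ} (hne : lam ≠ mu) (he : IsMode m w Q mu e e')
    (hf : BddC K f) (hg : BddC K g)
    (h1 : ∀ x, LL1 m w Q f g x = lam * f x + (e x + r x))
    (h2 : ∀ x, LL2 m w Q f g x = lam * g x + (e' x + r' x)) :
    ∃ c : ℂ, BddC K (fun x => f x + c * e x) ∧ BddC K (fun x => g x + c * e' x) ∧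
      (∀ x, LL1 m w Q (fun x => f x + c * e x) (fun x => g x + c * e' x) x
        = lam * (f x + c * e x) + r x) ∧
      (∀ x, LL2 m w Q (fun x => f x + c * e x) (fun x => g x + c * e' x) x
        = lam * (g x + c * e' x) + r' x) := by
  have hb := he.bddC (K := K) hP
  have hd : mu - lam ≠ 0 := sub_ne_zero.mpr (Ne.symm hne)
  have two : ∀ {F : E d → ℂ}, BddC K F → ContDiff ℝ 2 F := fun hF =>
    hF.1.of_le (by exact_mod_cast hK)
  obtain ⟨he1, he2⟩ := he.eigen hm hP
  refine ⟨-(mu - lam)⁻¹, hf.add (hb.1.cmul _), hg.add (hb.2.cmul _), fun x => ?_, fun x => ?_⟩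
  · rw [LL1_lin _ (two hf) (two hb.1), h1, he1]
    field_simp
    ring
  · rw [LL2_lin _ (two hg) (two hb.2), h2, he2]
    field_simp
    ring

/-- **Mode stability modulo the symmetry modes**: if `(LL - lam)(f,g)` is in the span `E` of the
symmetry modes and `Re lam ≥ 0` then `(f,g)` is in `E`. -/
theorem ModeStable.modE (hm : 1 ≤ m) (hP : IsProfile d m w Q)
    (hS : ModeStable (d := d) m K w Q) (hK : 2 ≤ K) (hlam : 0 ≤ lam.re)
    (hf : BddC K f) (hg : BddC K g) (hE : InE m w Q f' g')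
    (h1 : ∀ x, LL1 m w Q f g x = lam * f x + f' x)
    (h2 : ∀ x, LL2 m w Q f g x = lam * g x + g' x) : InE m w Q f g := by
  obtain ⟨f0, g0, f1, g1, f2, g2, m0, m1, m2, hd⟩ := hE
  by_cases l0 : lam = 0
  · -- remove `1/2` and `1`
    have n1 : lam ≠ 1 / 2 := by rw [l0]; norm_num
    have n2 : lam ≠ 1 := by rw [l0]; norm_num
    obtain ⟨c, hf1, hg1, k1, k2⟩ := remove_mode hm hP hK (r := fun x => f0 x + f2 x)
      (r' := fun x => g0 x + g2 x) n1 m1 hf hg
      (fun x => by rw [h1, (hd x).1]; ring) (fun x => by rw [h2, (hd x).2]; ring)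
    obtain ⟨c', hf2, hg2, k3, k4⟩ := remove_mode hm hP hK (r := f0) (r' := g0) n2 m2 hf1 hg1
      (fun x => by rw [k1]; ring) (fun x => by rw [k2]; ring)
    have hj := hS.jordan lam hlam _ _ f0 g0 hf2 hg2 (l0 ▸ m0) k3 k4
    have he := hS.eig lam hlam _ _ hf2 hg2
      (fun x => by rw [k3, (hj x).1, add_zero]) (fun x => by rw [k4, (hj x).2, add_zero])
    rw [l0] at he
    exact ⟨_, _, _, _, _, _, he, m1.cmul (-c), m2.cmul (-c'), fun x => ⟨by ring, by ring⟩⟩
  by_cases l1 : lam = 1 / 2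
  · have n2 : lam ≠ 1 := by rw [l1]; norm_num
    obtain ⟨c, hf1, hg1, k1, k2⟩ := remove_mode hm hP hK (r := fun x => f1 x + f2 x)
      (r' := fun x => g1 x + g2 x) l0 m0 hf hg
      (fun x => by rw [h1, (hd x).1]; ring) (fun x => by rw [h2, (hd x).2]; ring)
    obtain ⟨c', hf2, hg2, k3, k4⟩ := remove_mode hm hP hK (r := f1) (r' := g1) n2 m2 hf1 hg1
      (fun x => by rw [k1]; ring) (fun x => by rw [k2]; ring)
    have hj := hS.jordan lam hlam _ _ f1 g1 hf2 hg2 (l1 ▸ m1) k3 k4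
    have he := hS.eig lam hlam _ _ hf2 hg2
      (fun x => by rw [k3, (hj x).1, add_zero]) (fun x => by rw [k4, (hj x).2, add_zero])
    rw [l1] at he
    exact ⟨_, _, _, _, _, _, m0.cmul (-c), he, m2.cmul (-c'), fun x => ⟨by ring, by ring⟩⟩
  by_cases l2 : lam = 1
  · obtain ⟨c, hf1, hg1, k1, k2⟩ := remove_mode hm hP hK (r := fun x => f1 x + f2 x)
      (r' := fun x => g1 x + g2 x) l0 m0 hf hg
      (fun x => by rw [h1, (hd x).1]; ring) (fun x => by rw [h2, (hd x).2]; ring)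
    obtain ⟨c', hf2, hg2, k3, k4⟩ := remove_mode hm hP hK (r := f2) (r' := g2) l1 m1 hf1 hg1
      (fun x => by rw [k1]) (fun x => by rw [k2])
    have hj := hS.jordan lam hlam _ _ f2 g2 hf2 hg2 (l2 ▸ m2) k3 k4
    have he := hS.eig lam hlam _ _ hf2 hg2
      (fun x => by rw [k3, (hj x).1, add_zero]) (fun x => by rw [k4, (hj x).2, add_zero])
    rw [l2] at he
    exact ⟨_, _, _, _, _, _, m0.cmul (-c), m1.cmul (-c'), he, fun x => ⟨by ring, by ring⟩⟩
  · obtain ⟨c, hf1, hg1, k1, k2⟩ := remove_mode hm hP hK (r := fun x => f1 x + f2 x)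
      (r' := fun x => g1 x + g2 x) l0 m0 hf hg
      (fun x => by rw [h1, (hd x).1]; ring) (fun x => by rw [h2, (hd x).2]; ring)
    obtain ⟨c', hf2, hg2, k3, k4⟩ := remove_mode hm hP hK (r := f2) (r' := g2) l1 m1 hf1 hg1
      (fun x => by rw [k1]) (fun x => by rw [k2])
    obtain ⟨c'', hf3, hg3, k5, k6⟩ := remove_mode hm hP hK (r := fun _ => 0) (r' := fun _ => 0)
      l2 m2 hf2 hg2 (fun x => by rw [k3]; ring) (fun x => by rw [k4]; ring)
    have he := hS.eig lam hlam _ _ hf3 hg3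
      (fun x => by rw [k5, add_zero]) (fun x => by rw [k6, add_zero])
    have hz : ∀ x, (f x + c * f0 x) + c' * f1 x + c'' * f2 x = 0 ∧
        (g x + c * g0 x) + c' * g1 x + c'' * g2 x = 0 := by
      rcases he with ⟨hl, _⟩ | ⟨hl, _⟩ | ⟨hl, _⟩ | hz
      · exact absurd hl l0
      · exact absurd hl l1
      · exact absurd hl l2
      · exact hz
    refine ⟨_, _, _, _, _, _, m0.cmul (-c), m1.cmul (-c'), m2.cmul (-c''), fun x => ?_⟩
    obtain ⟨z1, z2⟩ := hz x
    exact ⟨by linear_combination z1, by linear_combination z2⟩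

end Vale.Agent.P139.BU
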