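import Vale.Agent.P139.BU.Core

/-!
# P139 / BU : the symmetry modes are exact eigenvectors of the linearised operator
-/

open scoped ComplexConjugate ContDiff
open Complex

namespace Vale.Agent.P139.BU

variable {d : ℕ}

section calculus

variable {f g : E d → ℂ}

theorem contDiff_pd (hf : ContDiff ℝ ∞ f) (j : Fin d) : ContDiff ℝ ∞ (pd j f) := by
  unfold pd
  exact (hf.fderiv_right (m := ∞) (by simp)).clm_apply contDiff_const

theorem contDiff_eul (hf : ContDiff ℝ ∞ f) : ContDiff ℝ ∞ (eul f) := by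
  unfold eul
  exact (hf.fderiv_right (m := ∞) (by simp)).clm_apply contDiff_id

theorem contDiff_lap (hf : ContDiff ℝ ∞ f) : ContDiff ℝ ∞ (lap f) := by
  unfold lap
  exact ContDiff.sum fun j _ => contDiff_pd (contDiff_pd hf j) j

theorem diffAt (hf : ContDiff ℝ ∞ f) (x : E d) : DifferentiableAt ℝ f x :=
  (hf.differentiable (by simp)) x

theorem fderiv_conj' (x : E d) (v : E d) :
    fderiv ℝ (fun y => conj (f y)) x v = conj (fderiv ℝ f x v) := by
  have h2 : fderiv ℝ (fun y => conj (f y)) x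
      = (Complex.conjCLE : ℂ →L[ℝ] ℂ).comp (fderiv ℝ f x) :=
    (Complex.conjCLE : ℂ ≃L[ℝ] ℂ).comp_fderiv (f := f) (x := x)
  rw [h2]
  rfl

theorem contDiff_conj (hf : ContDiff ℝ ∞ f) : ContDiff ℝ ∞ (fun y => conj (f y)) :=
  (Complex.conjCLE : ℂ ≃L[ℝ] ℂ).contDiff.comp hf

theorem fderiv_mul' (hf : ContDiff ℝ ∞ f) (hg : ContDiff ℝ ∞ g) (x v : E d) :
    fderiv ℝ (fun y => f y * g y) x v = fderiv ℝ f x v * g x + f x * fderiv ℝ g x v := by
  rw [fderiv_fun_mul (diffAt hf x) (diffAt hg x)]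
  simp only [add_apply, smul_apply, smul_eq_mul]
  ring

theorem fderiv_pow' (hf : ContDiff ℝ ∞ f) (n : ℕ) (x v : E d) :
    fderiv ℝ (fun y => f y ^ n) x v = n * f x ^ (n - 1) * fderiv ℝ f x v := by
  rw [fderiv_fun_pow n (diffAt hf x)]
  simp only [smul_apply, nsmul_eq_mul, smul_eq_mul]

theorem fderiv_add' (hf : ContDiff ℝ ∞ f) (hg : ContDiff ℝ ∞ g) (x v : E d) :
    fderiv ℝ (fun y => f y + g y) x v = fderiv ℝ f x v + fderiv ℝ g x v := by
  rw [fderiv_fun_add (diffAt hf x) (diffAt hg x)]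
  rfl

theorem fderiv_cmul' (c : ℂ) (hf : ContDiff ℝ ∞ f) (x v : E d) :
    fderiv ℝ (fun y => c * f y) x v = c * fderiv ℝ f x v := by
  rw [fderiv_const_mul (diffAt hf x)]
  rfl

/-- Mixed derivatives commute. -/
theorem fderiv_pd_comm (hf : ContDiff ℝ ∞ f) (j : Fin d) (x v : E d) :
    fderiv ℝ (pd j f) x v
      = (fderiv ℝ (fderiv ℝ f) x v) (EuclideanSpace.single j (1 : ℝ)) := by
  have h1 : DifferentiableAt ℝ (fderiv ℝ f) x :=
    ((hf.fderiv_right (m := ∞) (by simp)).differentiable (by simp)) x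
  unfold pd
  rw [fderiv_clm_apply h1 (differentiableAt_const _)]
  simp

theorem symm2 (hf : ContDiff ℝ ∞ f) (x v w : E d) :
    (fderiv ℝ (fderiv ℝ f) x v) w = (fderiv ℝ (fderiv ℝ f) x w) v := by
  have h : IsSymmSndFDerivAt ℝ f x :=
    (hf.contDiffAt (x := x)).isSymmSndFDerivAt (by
      simp only [minSmoothness_of_isRCLikeNormedField]
      exact WithTop.coe_le_coe.mpr le_top)
  exact h.eq v w

theorem pd_pd_comm (hf : ContDiff ℝ ∞ f) (i j : Fin d) :
    pd i (pd j f) = pd j (pd i f) := by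
  funext x
  have h1 := fderiv_pd_comm hf j x (EuclideanSpace.single i (1 : ℝ))
  have h2 := fderiv_pd_comm hf i x (EuclideanSpace.single j (1 : ℝ))
  change fderiv ℝ (pd j f) x _ = fderiv ℝ (pd i f) x _
  rw [h1, h2, symm2 hf]

theorem pd_sum {ι : Type*} (s : Finset ι) (F : ι → E d → ℂ) (hF : ∀ i ∈ s, ContDiff ℝ ∞ (F i))
    (x v : E d) : fderiv ℝ (fun y => ∑ i ∈ s, F i y) x v = ∑ i ∈ s, fderiv ℝ (F i) x v := by
  rw [fderiv_fun_sum fun i hi => diffAt (hF i hi) x]
  simp

theorem pd_lap (hf : ContDiff ℝ ∞ f) (i : Fin d) : pd i (lap f) = lap (pd i f) := by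
  funext x
  unfold lap
  have h : pd i (fun x => ∑ j, pd j (pd j f) x) x = ∑ j, pd i (pd j (pd j f)) x :=
    pd_sum _ _ (fun j _ => contDiff_pd (contDiff_pd hf j) j) _ _
  change pd i (fun x => ∑ j, pd j (pd j f) x) x = _
  rw [h]
  refine Finset.sum_congr rfl fun j _ => ?_
  rw [pd_pd_comm (contDiff_pd hf j) i j, pd_pd_comm hf i j]

theorem pd_eul (hf : ContDiff ℝ ∞ f) (i : Fin d) (x : E d) :
    pd i (eul f) x = eul (pd i f) x + pd i f x := by
  have h1 : DifferentiableAt ℝ (fderiv ℝ f) x :=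
    ((hf.fderiv_right (m := ∞) (by simp)).differentiable (by simp)) x
  have h2 : pd i (eul f) x = (fderiv ℝ (fderiv ℝ f) x (EuclideanSpace.single i (1 : ℝ))) x
      + fderiv ℝ f x (EuclideanSpace.single i (1 : ℝ)) := by
    unfold pd eul
    rw [fderiv_clm_apply h1 differentiableAt_fun_id]
    simp [add_comm]
  have h3 : eul (pd i f) x = (fderiv ℝ (fderiv ℝ f) x x) (EuclideanSpace.single i (1 : ℝ)) :=
    fderiv_pd_comm hf i x x
  rw [h2, h3, symm2 hf]
  rfl

theorem eul_sum {ι : Type*} (s : Finset ι) (F : ι → E d → ℂ) (hF : ∀ i ∈ s, ContDiff ℝ ∞ (F i))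
    (x : E d) : eul (fun y => ∑ i ∈ s, F i y) x = ∑ i ∈ s, eul (F i) x :=
  pd_sum s F hF x x

theorem lap_eul (hf : ContDiff ℝ ∞ f) (x : E d) :
    lap (eul f) x = eul (lap f) x + 2 * lap f x := by
  have h : ∀ j : Fin d, pd j (pd j (eul f)) x
      = eul (pd j (pd j f)) x + 2 * pd j (pd j f) x := by
    intro j
    have e1 : pd j (eul f) = fun y => eul (pd j f) y + pd j f y :=
      funext fun y => pd_eul hf j y
    have e2 : pd j (fun y => eul (pd j f) y + pd j f y) x
        = pd j (eul (pd j f)) x + pd j (pd j f) x :=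
      fderiv_add' (contDiff_eul (contDiff_pd hf j)) (contDiff_pd hf j) x _
    rw [e1, e2, pd_eul (contDiff_pd hf j) j x]
    ring
  have h2 : eul (lap f) x = ∑ j, eul (pd j (pd j f)) x :=
    eul_sum _ _ (fun j _ => contDiff_pd (contDiff_pd hf j) j) x
  rw [h2]
  unfold lap
  rw [Finset.sum_congr rfl fun j _ => h j, Finset.sum_add_distrib, Finset.mul_sum]

theorem fderiv_W1_mul (m : ℕ) (hm : 1 ≤ m) (hf : ContDiff ℝ ∞ f) (x v : E d) :
    fderiv ℝ (fun y => W1 m (f y) * f y) x v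
      = ((m : ℂ) + 1) * W1 m (f x) * fderiv ℝ f x v
        + (m : ℂ) * W2 m (f x) * conj (fderiv ℝ f x v) := by
  obtain ⟨k, rfl⟩ : ∃ k, m = k + 1 := ⟨m - 1, by omega⟩
  have e : (fun y => W1 (k + 1) (f y) * f y)
      = fun y => f y ^ (k + 2) * (conj (f y)) ^ (k + 1) := by
    funext y
    unfold W1
    rw [mul_pow]
    ring
  rw [e, fderiv_mul' (hf.pow _) ((contDiff_conj hf).pow _), fderiv_pow' hf,
    fderiv_pow' (contDiff_conj hf), fderiv_conj']
  unfold W1 W2
  rw [mul_pow]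
  simp only [Nat.add_sub_cancel, show k + 2 - 1 = k + 1 from rfl]
  push_cast
  ring

end calculus

section linear

variable {m : ℕ} {w : ℝ} {Q f g f' g' : E d → ℂ}

theorem lap_add (hf : ContDiff ℝ ∞ f) (hg : ContDiff ℝ ∞ g) (x : E d) :
    lap (fun y => f y + g y) x = lap f x + lap g x := by
  unfold lap
  rw [← Finset.sum_add_distrib]
  refine Finset.sum_congr rfl fun j _ => ?_
  have e : pd j (fun y => f y + g y) = fun y => pd j f y + pd j g y :=
    funext fun y => fderiv_add' hf hg y _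
  rw [e]
  exact fderiv_add' (contDiff_pd hf j) (contDiff_pd hg j) x _

theorem lap_cmul (c : ℂ) (hf : ContDiff ℝ ∞ f) (x : E d) :
    lap (fun y => c * f y) x = c * lap f x := by
  unfold lap
  rw [Finset.mul_sum]
  refine Finset.sum_congr rfl fun j _ => ?_
  have e : pd j (fun y => c * f y) = fun y => c * pd j f y :=
    funext fun y => fderiv_cmul' c hf y _
  rw [e]
  exact fderiv_cmul' c (contDiff_pd hf j) x _

theorem lap_conj (x : E d) : lap (fun y => conj (f y)) x = conj (lap f x) := by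
  unfold lap
  rw [map_sum]
  refine Finset.sum_congr rfl fun j _ => ?_
  have e : pd j (fun y => conj (f y)) = fun y => conj (pd j f y) :=
    funext fun y => fderiv_conj' y _
  rw [e]
  exact fderiv_conj' x _

theorem W1_real (z : ℂ) : conj (W1 m z) = W1 m z := by
  unfold W1
  rw [map_pow, map_mul, Complex.conj_conj, mul_comm]

/-- The real structure: `LL2` on `(f, conj f)` is the conjugate of `LL1`. -/
theorem LL2_conj (x : E d) :
    LL2 m w Q f (fun y => conj (f y)) x = conj (LL1 m w Q f (fun y => conj (f y)) x) := by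
  unfold LL1 LL2
  have e1 : eul (fun y => conj (f y)) x = conj (eul f x) := fderiv_conj' x x
  rw [lap_conj, e1]
  simp only [map_sub, map_add, map_mul, Complex.conj_I, Complex.conj_conj, W1_real,
    Complex.conj_ofReal, map_one, map_natCast, map_div₀, map_ofNat]
  ring

theorem LL1_add (hf : ContDiff ℝ ∞ f) (hf' : ContDiff ℝ ∞ f') (x : E d) :
    LL1 m w Q (fun y => f y + f' y) (fun y => g y + g' y) x
      = LL1 m w Q f g x + LL1 m w Q f' g' x := by
  unfold LL1
  have e1 : eul (fun y => f y + f' y) x = eul f x + eul f' x := fderiv_add' hf hf' x x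
  rw [lap_add hf hf', e1]
  ring

theorem LL2_add (hg : ContDiff ℝ ∞ g) (hg' : ContDiff ℝ ∞ g') (x : E d) :
    LL2 m w Q (fun y => f y + f' y) (fun y => g y + g' y) x
      = LL2 m w Q f g x + LL2 m w Q f' g' x := by
  unfold LL2
  have e1 : eul (fun y => g y + g' y) x = eul g x + eul g' x := fderiv_add' hg hg' x x
  rw [lap_add hg hg', e1]
  ring

theorem LL1_cmul (c : ℂ) (hf : ContDiff ℝ ∞ f) (x : E d) :
    LL1 m w Q (fun y => c * f y) (fun y => c * g y) x = c * LL1 m w Q f g x := by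
  unfold LL1
  have e1 : eul (fun y => c * f y) x = c * eul f x := fderiv_cmul' c hf x x
  rw [lap_cmul c hf, e1]
  ring

theorem LL2_cmul (c : ℂ) (hg : ContDiff ℝ ∞ g) (x : E d) :
    LL2 m w Q (fun y => c * f y) (fun y => c * g y) x = c * LL2 m w Q f g x := by
  unfold LL2
  have e1 : eul (fun y => c * g y) x = c * eul g x := fderiv_cmul' c hg x x
  rw [lap_cmul c hg, e1]
  ring

theorem LL1_eq_M (x : E d) : LL1 m w Q f g x = I * (lap f x + (I / 2) * eul f x
    + ((w : ℂ) + I * (aa m : ℂ)) * f x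
    - (((m : ℂ) + 1) * W1 m (Q x) * f x + (m : ℂ) * W2 m (Q x) * g x)) := by
  unfold LL1
  linear_combination (-(1 / 2) * eul f x - (aa m : ℂ) * f x) * Complex.I_mul_I

theorem IsProfile.smooth (h : IsProfile d m w Q) : ContDiff ℝ ∞ Q := by
  obtain ⟨k, hk, hQ⟩ := h.radial
  have : Q = fun x => k (‖x‖ ^ 2) := funext hQ
  rw [this]
  exact hk.comp (contDiff_norm_sq ℝ)

theorem W2_mul_conj (hm : 1 ≤ m) (z : ℂ) : W2 m z * conj z = W1 m z * z := by
  obtain ⟨k, rfl⟩ : ∃ k, m = k + 1 := ⟨m - 1, by omega⟩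
  unfold W1 W2
  rw [mul_pow]
  simp only [Nat.add_sub_cancel]
  ring

theorem aa_mul (hm : 1 ≤ m) : (2 * (m : ℂ)) * (aa m : ℂ) = 1 := by
  unfold aa
  have : (m : ℂ) ≠ 0 := Nat.cast_ne_zero.mpr (by omega)
  push_cast
  field_simp

/-- `LL(iQ) = 0`. -/
theorem LL1_phase (hm : 1 ≤ m) (h : IsProfile d m w Q) (x : E d) :
    LL1 m w Q (phaseMode Q) (fun y => conj (phaseMode Q y)) x = 0 := by
  rw [LL1_eq_M]
  have e0 : phaseMode Q = fun y => I * Q y := rfl
  have e1 : lap (phaseMode Q) x = I * lap Q x := by rw [e0]; exact lap_cmul I h.smooth x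
  have e2 : eul (phaseMode Q) x = I * eul Q x := by rw [e0]; exact fderiv_cmul' I h.smooth x x
  rw [e1, e2]
  have hq := h.eqn x
  have h2 := W2_mul_conj hm (Q x)
  simp only [phaseMode, map_mul, Complex.conj_I]
  linear_combination (I * I) * hq + (I * I) * (m : ℂ) * h2

/-- `LL(∂_j Q) = (1/2) ∂_j Q`. -/
theorem LL1_pd (hm : 1 ≤ m) (h : IsProfile d m w Q) (j : Fin d) (x : E d) :
    LL1 m w Q (pd j Q) (fun y => conj (pd j Q y)) x = (1 / 2) * pd j Q x := by
  rw [LL1_eq_M]
  have hQ := h.smooth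
  have hpd := contDiff_pd hQ j
  -- differentiate the profile equation
  have hG : (fun y => (lap Q y + (I / 2) * eul Q y) + ((w : ℂ) + I * (aa m : ℂ)) * Q y)
      = fun y => W1 m (Q y) * Q y := funext fun y => h.eqn y
  have hD : fderiv ℝ (fun y => (lap Q y + (I / 2) * eul Q y)
      + ((w : ℂ) + I * (aa m : ℂ)) * Q y) x (EuclideanSpace.single j (1 : ℝ))
      = fderiv ℝ (fun y => W1 m (Q y) * Q y) x (EuclideanSpace.single j (1 : ℝ)) := by rw [hG]
  rw [fderiv_add' ((contDiff_lap hQ).add (contDiff_const.mul (contDiff_eul hQ)))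
      (contDiff_const.mul hQ), fderiv_add' (contDiff_lap hQ) (contDiff_const.mul (contDiff_eul hQ)),
    fderiv_cmul' _ (contDiff_eul hQ), fderiv_cmul' _ hQ, fderiv_W1_mul m hm hQ] at hD
  have e1 : fderiv ℝ (lap Q) x (EuclideanSpace.single j (1 : ℝ)) = lap (pd j Q) x :=
    congrFun (pd_lap hQ j) x
  have e2 : fderiv ℝ (eul Q) x (EuclideanSpace.single j (1 : ℝ))
      = eul (pd j Q) x + pd j Q x := pd_eul hQ j x
  have e3 : fderiv ℝ Q x (EuclideanSpace.single j (1 : ℝ)) = pd j Q x := rfl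
  rw [e1, e2, e3] at hD
  linear_combination I * hD - (1 / 2) * pd j Q x * Complex.I_mul_I

/-- `LL(T) = T` for the time translation mode. -/
theorem LL1_time (hm : 1 ≤ m) (h : IsProfile d m w Q) (x : E d) :
    LL1 m w Q (timeMode m w Q) (fun y => conj (timeMode m w Q y)) x = timeMode m w Q x := by
  rw [LL1_eq_M]
  have hQ := h.smooth
  have hE := contDiff_eul hQ
  have hT : timeMode m w Q
      = fun y => ((aa m : ℂ) - I * (w : ℂ)) * Q y + (1 / 2) * eul Q y := rfl
  have e1 : lap (timeMode m w Q) x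
      = ((aa m : ℂ) - I * (w : ℂ)) * lap Q x + (1 / 2) * (eul (lap Q) x + 2 * lap Q x) := by
    rw [hT, lap_add (contDiff_const.mul hQ) (contDiff_const.mul hE), lap_cmul _ hQ,
      lap_cmul _ hE, lap_eul hQ]
  have e2 : eul (timeMode m w Q) x
      = ((aa m : ℂ) - I * (w : ℂ)) * eul Q x + (1 / 2) * eul (eul Q) x := by
    rw [hT]
    change fderiv ℝ _ x x = _
    rw [fderiv_add' (contDiff_const.mul hQ) (contDiff_const.mul hE), fderiv_cmul' _ hQ,
      fderiv_cmul' _ hE]
    rfl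
  have e3 : conj (timeMode m w Q x)
      = ((aa m : ℂ) + I * (w : ℂ)) * conj (Q x) + (1 / 2) * conj (eul Q x) := by
    simp only [timeMode, map_add, map_sub, map_mul, Complex.conj_I, Complex.conj_ofReal, map_div₀,
      map_one, map_ofNat]
    ring
  -- Euler derivative of the profile equation
  have hG : (fun y => (lap Q y + (I / 2) * eul Q y) + ((w : ℂ) + I * (aa m : ℂ)) * Q y)
      = fun y => W1 m (Q y) * Q y := funext fun y => h.eqn y
  have hD : fderiv ℝ (fun y => (lap Q y + (I / 2) * eul Q y)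
      + ((w : ℂ) + I * (aa m : ℂ)) * Q y) x x
      = fderiv ℝ (fun y => W1 m (Q y) * Q y) x x := by rw [hG]
  rw [fderiv_add' ((contDiff_lap hQ).add (contDiff_const.mul (contDiff_eul hQ)))
      (contDiff_const.mul hQ), fderiv_add' (contDiff_lap hQ) (contDiff_const.mul (contDiff_eul hQ)),
    fderiv_cmul' _ (contDiff_eul hQ), fderiv_cmul' _ hQ, fderiv_W1_mul m hm hQ] at hD
  have e4 : fderiv ℝ (lap Q) x x = eul (lap Q) x := rfl
  have e5 : fderiv ℝ (eul Q) x x = eul (eul Q) x := rfl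
  have e6 : fderiv ℝ Q x x = eul Q x := rfl
  rw [e4, e5, e6] at hD
  have hq := h.eqn x
  have h2 := W2_mul_conj hm (Q x)
  have ha := aa_mul (m := m) hm
  rw [e1, e2, e3]
  simp only [timeMode]
  linear_combination (I / 2) * hD + I * ((aa m : ℂ) - I * (w : ℂ)) * hq
    - I * (m : ℂ) * ((aa m : ℂ) + I * (w : ℂ)) * h2 + I * hq - I * W1 m (Q x) * Q x * ha
    - ((1 / 2) * eul Q x + (aa m : ℂ) * Q x) * Complex.I_mul_I

end linear

end Vale.Agent.P139.BU
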