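import Vale.Agent.P139.BU.Core

/-!
# P139 / BU : the weighted Wiener space on `ℝ^d`

`XK d s κ` is the space of densities `φ` with `∫ (1 + κ ‖ξ‖ ^ s) ‖φ ξ‖ dξ < ∞`; the function
represented by `φ` is `ev φ = 𝓕⁻ φ`.
-/

open MeasureTheory Real FourierTransform Filter Topology
open scoped ComplexConjugate ContDiff ENNReal InnerProductSpace

namespace Vale.Agent.P139.BU

variable {d s : ℕ} {κ : ℝ}

/-- the weight `1 + κ ‖ξ‖ ^ s` -/
noncomputable def wt (κ : ℝ) (s : ℕ) (ξ : E d) : ℝ := 1 + κ * ‖ξ‖ ^ s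

lemma one_le_wt (hκ : 0 ≤ κ) (s : ℕ) (ξ : E d) : 1 ≤ wt κ s ξ := by
  have : 0 ≤ κ * ‖ξ‖ ^ s := by positivity
  simp only [wt]; linarith

lemma wt_pos (hκ : 0 ≤ κ) (s : ℕ) (ξ : E d) : 0 < wt κ s ξ :=
  lt_of_lt_of_le one_pos (one_le_wt hκ s ξ)

lemma continuous_wt (κ : ℝ) (s : ℕ) : Continuous (wt (d := d) κ s) := by
  unfold wt; fun_prop

lemma wt_neg (κ : ℝ) (s : ℕ) (ξ : E d) : wt κ s (-ξ) = wt κ s ξ := by simp [wt]

/-- the weighted Lebesgue measure -/
noncomputable def nuK (d s : ℕ) (κ : ℝ) : Measure (E d) :=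
  volume.withDensity fun ξ => ENNReal.ofReal (wt κ s ξ)

/-- the weighted Wiener space (densities) -/
noncomputable abbrev XK (d s : ℕ) (κ : ℝ) := Lp ℂ 1 (nuK d s κ)

/-- the weighted Wiener space (densities), weight `1 + ‖ξ‖ ^ s` -/
noncomputable abbrev X1 (d s : ℕ) := XK d s 1

lemma meas_wt (κ : ℝ) (s : ℕ) :
    Measurable (fun ξ : E d => ENNReal.ofReal (wt κ s ξ)) :=
  (continuous_wt κ s).measurable.ennreal_ofReal

lemma nuK_ac : nuK d s κ ≪ (volume : Measure (E d)) := withDensity_absolutelyContinuous _ _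

lemma ac_nuK (hκ : 0 ≤ κ) : (volume : Measure (E d)) ≪ nuK d s κ := by
  refine withDensity_absolutelyContinuous' (meas_wt κ s).aemeasurable ?_
  filter_upwards with ξ
  exact (ENNReal.ofReal_pos.2 (wt_pos hκ s ξ)).ne'

lemma ae_nuK (hκ : 0 ≤ κ) {p : E d → Prop} :
    (∀ᵐ ξ ∂(nuK d s κ), p ξ) ↔ ∀ᵐ ξ, p ξ :=
  ⟨fun h => (ac_nuK hκ).ae_le h, fun h => nuK_ac.ae_le h⟩

lemma integrable_nuK (hκ : 0 ≤ κ) {F : Type*} [NormedAddCommGroup F] [NormedSpace ℝ F]
    {g : E d → F} :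
    Integrable g (nuK d s κ) ↔ Integrable (fun ξ => wt κ s ξ • g ξ) := by
  unfold nuK
  rw [integrable_withDensity_iff_integrable_smul' (meas_wt κ s)
    (Eventually.of_forall fun _ => ENNReal.ofReal_lt_top)]
  simp only [ENNReal.toReal_ofReal (wt_pos hκ s _).le]

lemma integral_nuK (hκ : 0 ≤ κ) {F : Type*} [NormedAddCommGroup F] [NormedSpace ℝ F]
    (g : E d → F) :
    ∫ ξ, g ξ ∂(nuK d s κ) = ∫ ξ, wt κ s ξ • g ξ := by
  unfold nuK
  rw [integral_withDensity_eq_integral_toReal_smul (meas_wt κ s)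
    (Eventually.of_forall fun _ => ENNReal.ofReal_lt_top)]
  simp only [ENNReal.toReal_ofReal (wt_pos hκ s _).le]

lemma aesm_nuK (hκ : 0 ≤ κ) {F : Type*} [TopologicalSpace F]
    {g : E d → F} :
    AEStronglyMeasurable g (nuK d s κ) ↔ AEStronglyMeasurable g volume :=
  ⟨fun h => h.mono_ac (ac_nuK hκ), fun h => h.mono_ac nuK_ac⟩

/-- integrability with respect to the weighted measure in terms of norms -/
lemma integrable_nuK_iff (hκ : 0 ≤ κ) {F : Type*} [NormedAddCommGroup F] [NormedSpace ℝ F]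
    {g : E d → F} :
    Integrable g (nuK d s κ) ↔
      AEStronglyMeasurable g volume ∧ Integrable (fun ξ => wt κ s ξ * ‖g ξ‖) := by
  constructor
  · intro h
    refine ⟨(aesm_nuK hκ).1 h.1, ?_⟩
    have := (integrable_nuK hκ).1 h.norm
    simpa [smul_eq_mul] using this
  · rintro ⟨h1, h2⟩
    have h3 : Integrable (fun ξ => ‖g ξ‖) (nuK d s κ) := by
      rw [integrable_nuK hκ]; simpa [smul_eq_mul] using h2
    exact (integrable_norm_iff ((aesm_nuK hκ).2 h1)).1 h3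

lemma Integrable.of_nuK (hκ : 0 ≤ κ) {F : Type*} [NormedAddCommGroup F] [NormedSpace ℝ F]
    {g : E d → F} (h : Integrable g (nuK d s κ)) : Integrable g := by
  have h2 := (integrable_nuK_iff hκ).1 h
  refine h2.2.mono h2.1 (Eventually.of_forall fun ξ => ?_)
  rw [Real.norm_of_nonneg (mul_nonneg (wt_pos hκ s ξ).le (norm_nonneg _))]
  exact le_mul_of_one_le_left (norm_nonneg _) (one_le_wt hκ s ξ)

/-- moments up to order `s` -/
lemma Integrable.moment (hκ : 0 < κ) {F : Type*} [NormedAddCommGroup F] [NormedSpace ℝ F]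
    {g : E d → F} (h : Integrable g (nuK d s κ)) {n : ℕ} (hn : n ≤ s) :
    Integrable (fun ξ => ‖ξ‖ ^ n * ‖g ξ‖) := by
  have h2 := (integrable_nuK_iff hκ.le).1 h
  refine (h2.2.const_mul (1 + κ⁻¹)).mono (by
    exact (continuous_norm.pow n).aestronglyMeasurable.mul h2.1.norm)
    (Eventually.of_forall fun ξ => ?_)
  have hw := wt_pos hκ.le s ξ
  rw [Real.norm_of_nonneg (by positivity), Real.norm_of_nonneg (by positivity), ← mul_assoc]
  refine mul_le_mul_of_nonneg_right ?_ (norm_nonneg _)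
  have h3 : ‖ξ‖ ^ n ≤ 1 + ‖ξ‖ ^ s := by
    rcases le_total ‖ξ‖ 1 with h1 | h1
    · have := pow_le_one₀ (n := n) (norm_nonneg ξ) h1
      have h4 : 0 ≤ ‖ξ‖ ^ s := by positivity
      linarith
    · have := pow_le_pow_right₀ h1 hn
      linarith
  refine h3.trans ?_
  have h5 : 0 ≤ ‖ξ‖ ^ s := by positivity
  have h6 : 0 < κ⁻¹ := by positivity
  have h7 : κ⁻¹ * (κ * ‖ξ‖ ^ s) = ‖ξ‖ ^ s := by field_simp
  simp only [wt]
  nlinarith [mul_nonneg hκ.le h5]

/-- elements of the space are integrable -/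
lemma XK.integrable (hκ : 0 ≤ κ) (f : XK d s κ) : Integrable (f : E d → ℂ) :=
  Integrable.of_nuK hκ (L1.integrable_coeFn f)

lemma XK.aesm (hκ : 0 ≤ κ) (f : XK d s κ) : AEStronglyMeasurable (f : E d → ℂ) volume :=
  (XK.integrable hκ f).1

lemma XK.integrable_wt (hκ : 0 ≤ κ) (f : XK d s κ) :
    Integrable fun ξ => wt κ s ξ * ‖f ξ‖ :=
  ((integrable_nuK_iff hκ).1 (L1.integrable_coeFn f)).2

lemma XK.moment (hκ : 0 < κ) (f : XK d s κ) {n : ℕ} (hn : n ≤ s) :
    Integrable (fun ξ => ‖ξ‖ ^ n * ‖f ξ‖) :=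
  Integrable.moment hκ (L1.integrable_coeFn f) hn

theorem XK.norm_eq (hκ : 0 ≤ κ) (f : XK d s κ) : ‖f‖ = ∫ ξ, wt κ s ξ * ‖f ξ‖ := by
  rw [L1.norm_eq_integral_norm, integral_nuK hκ]
  simp [smul_eq_mul]

/-- the element of `XK` given by a density -/
noncomputable def mkX {φ : E d → ℂ} (h : Integrable φ (nuK d s κ)) : XK d s κ := h.toL1 φ

lemma coe_mkX (hκ : 0 ≤ κ) {φ : E d → ℂ} (h : Integrable φ (nuK d s κ)) :
    (mkX h : E d → ℂ) =ᵐ[volume] φ :=
  (ac_nuK hκ).ae_le (h.coeFn_toL1)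

lemma XK.ext_ae {f g : XK d s κ} (h : (f : E d → ℂ) =ᵐ[volume] g) : f = g := by
  exact Lp.ext (nuK_ac.ae_le h)

lemma XK.ae_add (hκ : 0 ≤ κ) (f g : XK d s κ) :
    ((f + g : XK d s κ) : E d → ℂ) =ᵐ[volume] fun ξ => f ξ + g ξ :=
  (ac_nuK hκ).ae_le (Lp.coeFn_add f g)

lemma XK.ae_smul (hκ : 0 ≤ κ) (c : ℂ) (f : XK d s κ) :
    ((c • f : XK d s κ) : E d → ℂ) =ᵐ[volume] fun ξ => c * f ξ :=
  (ac_nuK hκ).ae_le (Lp.coeFn_smul c f)

lemma norm_mkX (hκ : 0 ≤ κ) {φ : E d → ℂ} (h : Integrable φ (nuK d s κ)) :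
    ‖mkX h‖ = ∫ ξ, wt κ s ξ * ‖φ ξ‖ := by
  rw [XK.norm_eq hκ]
  apply integral_congr_ae
  filter_upwards [coe_mkX hκ h] with ξ hξ
  rw [hξ]

/-- the function represented by a density -/
noncomputable def ev (f : XK d s κ) (y : E d) : ℂ := 𝓕⁻ (f : E d → ℂ) y

lemma ev_apply (f : XK d s κ) (y : E d) : ev f y = ∫ ξ, 𝐞 ⟪ξ, y⟫_ℝ • f ξ := by
  rw [ev, fourierInv_eq]

lemma ev_mkX (hκ : 0 ≤ κ) {φ : E d → ℂ} (h : Integrable φ (nuK d s κ)) (y : E d) :
    ev (mkX h) y = 𝓕⁻ φ y :=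
  fourierInv_congr_ae (coe_mkX hκ h) y

lemma integrable_char {φ : E d → ℂ} (h : Integrable φ) (y : E d) :
    Integrable fun ξ => 𝐞 ⟪ξ, y⟫_ℝ • φ ξ := by
  refine h.mono ?_ (Eventually.of_forall fun ξ => by rw [Circle.norm_smul])
  exact (continuous_fourierChar.comp (by fun_prop : Continuous fun ξ : E d =>
    ⟪ξ, y⟫_ℝ)).aestronglyMeasurable.smul h.1

lemma ev_add (hκ : 0 ≤ κ) (f g : XK d s κ) (y : E d) : ev (f + g) y = ev f y + ev g y := by
  rw [ev_apply, ev_apply, ev_apply, ← integral_add (integrable_char (XK.integrable hκ f) y)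
    (integrable_char (XK.integrable hκ g) y)]
  apply integral_congr_ae
  filter_upwards [XK.ae_add hκ f g] with ξ hξ
  rw [hξ, smul_add]

lemma ev_smul (hκ : 0 ≤ κ) (c : ℂ) (f : XK d s κ) (y : E d) : ev (c • f) y = c * ev f y := by
  rw [ev_apply, ev_apply, ← integral_const_mul]
  apply integral_congr_ae
  filter_upwards [XK.ae_smul hκ c f] with ξ hξ
  rw [hξ, Circle.smul_def, Circle.smul_def, smul_eq_mul, smul_eq_mul]
  ring

lemma norm_ev_le (f : XK d s κ) (y : E d) : ‖ev f y‖ ≤ ∫ ξ, ‖f ξ‖ := by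
  rw [ev_apply]
  refine (norm_integral_le_integral_norm _).trans (le_of_eq ?_)
  simp_rw [Circle.norm_smul]

lemma integral_norm_le (hκ : 0 ≤ κ) (f : XK d s κ) : ∫ ξ, ‖f ξ‖ ≤ ‖f‖ := by
  rw [XK.norm_eq hκ]
  refine integral_mono (XK.integrable hκ f).norm (XK.integrable_wt hκ f) fun ξ => ?_
  exact le_mul_of_one_le_left (norm_nonneg _) (one_le_wt hκ s ξ)

/-- evaluation at a point as a continuous linear functional -/
noncomputable def evL (hκ : 0 ≤ κ) (y : E d) : XK d s κ →L[ℂ] ℂ :=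
  LinearMap.mkContinuous
    { toFun := fun f => ev f y
      map_add' := fun f g => ev_add hκ f g y
      map_smul' := fun c f => ev_smul hκ c f y }
    1 fun f => by
      rw [one_mul]
      exact (norm_ev_le f y).trans (integral_norm_le hκ f)

@[simp] lemma evL_apply (hκ : 0 ≤ κ) (y : E d) (f : XK d s κ) : evL hκ y f = ev f y := rfl

lemma ev_sub (hκ : 0 ≤ κ) (f g : XK d s κ) (y : E d) : ev (f - g) y = ev f y - ev g y := by
  have := map_sub (evL hκ y) f g
  simpa only [evL_apply] using this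

lemma ev_zero (hκ : 0 ≤ κ) (y : E d) : ev (0 : XK d s κ) y = 0 := by
  have := map_zero (evL (s := s) hκ y)
  simpa only [evL_apply] using this

/-- an integrable density with weighted moment gives an element of the space -/
lemma exists_ev (hκ : 0 ≤ κ) {φ : E d → ℂ} (h1 : AEStronglyMeasurable φ volume)
    (h2 : Integrable fun ξ => wt κ s ξ * ‖φ ξ‖) :
    ∃ f : XK d s κ, (f : E d → ℂ) =ᵐ[volume] φ ∧ (∀ y, ev f y = 𝓕⁻ φ y) ∧
      ‖f‖ = ∫ ξ, wt κ s ξ * ‖φ ξ‖ := by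
  have h : Integrable φ (nuK d s κ) := (integrable_nuK_iff hκ).2 ⟨h1, h2⟩
  exact ⟨mkX h, coe_mkX hκ h, ev_mkX hκ h, norm_mkX hκ h⟩

/-! ### Injectivity -/

lemma real_smul_eq (c : ℝ) (f : XK d s κ) : c • f = (c : ℂ) • f := by
  apply Lp.ext
  filter_upwards [Lp.coeFn_smul c f, Lp.coeFn_smul (c : ℂ) f] with ξ h1 h2
  rw [h1, h2]
  simp

/-- an integrable function with vanishing (inverse) Fourier transform vanishes -/
theorem ae_zero_of_fourierInv {φ : E d → ℂ} (hφ : Integrable φ) (h0 : ∀ y, 𝓕⁻ φ y = 0) :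
    φ =ᵐ[volume] 0 := by
  refine ae_eq_zero_of_integral_contDiff_smul_eq_zero hφ.locallyIntegrable ?_
  intro g hg hgs
  have h1 : HasCompactSupport (fun x => (g x : ℂ)) := hgs.comp_left Complex.ofReal_zero
  have h2 : ContDiff ℝ ∞ (fun x => (g x : ℂ)) := Complex.ofRealCLM.contDiff.comp hg
  set G := h1.toSchwartzMap h2 with hG
  have h3 : 𝓕⁻ (𝓕 G) = G := FourierTransform.fourierInv_fourier_eq G
  have h4 : ∀ x, 𝓕⁻ ((𝓕 G : SchwartzMap (E d) ℂ) : E d → ℂ) x = (g x : ℂ) := by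
    intro x
    rw [← SchwartzMap.fourierInv_coe, h3]
    rfl
  have h5 := VectorFourier.integral_fourierIntegral_smul_eq_flip (e := 𝐞)
    (L := -innerₗ (E d)) (μ := volume) (ν := volume)
    (f := ((𝓕 G : SchwartzMap (E d) ℂ) : E d → ℂ)) (g := φ) Real.continuous_fourierChar
    (by simpa using! (by fun_prop : Continuous fun p : E d × E d => -(inner ℝ p.1 p.2)))
    (𝓕 G : SchwartzMap (E d) ℂ).integrable hφ
  have h6 : ∀ x, VectorFourier.fourierIntegral 𝐞 volume (-innerₗ (E d)).flip φ x = 0 := by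
    intro x
    have : (-innerₗ (E d)).flip = -innerₗ (E d) := by
      ext x y
      simp [real_inner_comm]
    rw [this]
    exact h0 x
  simp only [h6, smul_zero, integral_zero] at h5
  rw [← h5]
  apply integral_congr_ae
  filter_upwards with x
  have := h4 x
  simp only [FourierTransformInv.fourierInv] at this
  rw [this]
  simp

theorem ev_injective (hκ : 0 ≤ κ) {f g : XK d s κ} (h : ∀ y, ev f y = ev g y) : f = g := by
  have h1 : ∀ y, ev (f - g) y = 0 := by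
    intro y
    have := map_sub (evL hκ y) f g
    simp only [evL_apply] at this
    rw [this, h y, sub_self]
  have h2 := ae_zero_of_fourierInv (XK.integrable hκ (f - g)) h1
  have h3 : f - g = 0 := by
    apply XK.ext_ae
    filter_upwards [h2, (ac_nuK hκ).ae_le (Lp.coeFn_zero ℂ 1 (nuK d s κ))] with ξ hξ h0
    rw [hξ, h0]
  exact sub_eq_zero.1 h3

/-! ### The conjugate reflection -/

lemma ae_neg {p : E d → Prop} (h : ∀ᵐ ξ, p ξ) : ∀ᵐ ξ : E d, p (-ξ) :=
  (Measure.measurePreserving_neg (volume : Measure (E d))).quasiMeasurePreserving.ae h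

lemma integrable_star (hκ : 0 ≤ κ) (f : XK d s κ) :
    Integrable (fun ξ => conj (f (-ξ))) (nuK d s κ) := by
  rw [integrable_nuK_iff hκ]
  have h1 : AEStronglyMeasurable (fun ξ => f (-ξ)) volume :=
    (XK.aesm hκ f).comp_quasiMeasurePreserving
      (Measure.measurePreserving_neg (volume : Measure (E d))).quasiMeasurePreserving
  refine ⟨Complex.continuous_conj.comp_aestronglyMeasurable h1, ?_⟩
  have h2 := (XK.integrable_wt hκ f).comp_neg
  refine h2.congr (Eventually.of_forall fun ξ => ?_)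
  simp [wt_neg]

/-- the density of the complex conjugate -/
noncomputable def starX (hκ : 0 ≤ κ) (f : XK d s κ) : XK d s κ := mkX (integrable_star hκ f)

lemma coe_starX (hκ : 0 ≤ κ) (f : XK d s κ) :
    (starX hκ f : E d → ℂ) =ᵐ[volume] fun ξ => conj (f (-ξ)) := coe_mkX hκ _

lemma norm_starX (hκ : 0 ≤ κ) (f : XK d s κ) : ‖starX hκ f‖ = ‖f‖ := by
  rw [starX, norm_mkX hκ, XK.norm_eq hκ,
    ← integral_neg_eq_self (fun ξ => wt κ s ξ * ‖f ξ‖)]
  simp [wt_neg]

lemma ev_starX (hκ : 0 ≤ κ) (f : XK d s κ) (y : E d) : ev (starX hκ f) y = conj (ev f y) := by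
  rw [starX, ev_mkX hκ, fourierInv_eq, ev_apply, ← integral_conj,
    ← integral_neg_eq_self]
  apply integral_congr_ae
  filter_upwards with ξ
  simp only [neg_neg, inner_neg_left, Circle.smul_def, smul_eq_mul, map_mul]
  congr 1
  rw [← Circle.coe_inv_eq_conj, ← AddChar.map_neg_eq_inv]

lemma starX_add (hκ : 0 ≤ κ) (f g : XK d s κ) :
    starX hκ (f + g) = starX hκ f + starX hκ g := by
  apply ev_injective hκ
  intro y
  simp only [ev_starX, ev_add hκ, map_add]

lemma starX_smul (hκ : 0 ≤ κ) (c : ℂ) (f : XK d s κ) :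
    starX hκ (c • f) = conj c • starX hκ f := by
  apply ev_injective hκ
  intro y
  simp only [ev_starX, ev_smul hκ, map_mul]

lemma starX_starX (hκ : 0 ≤ κ) (f : XK d s κ) : starX hκ (starX hκ f) = f := by
  apply ev_injective hκ
  intro y
  simp only [ev_starX, Complex.conj_conj]

/-- the conjugation as a real linear isometry -/
noncomputable def starL (hκ : 0 ≤ κ) : XK d s κ →L[ℝ] XK d s κ :=
  LinearMap.mkContinuous
    { toFun := starX hκ
      map_add' := starX_add hκ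
      map_smul' := fun c f => by
        rw [real_smul_eq, starX_smul hκ, Complex.conj_ofReal, RingHom.id_apply, real_smul_eq] }
    1 fun f => by
      rw [one_mul]
      exact (norm_starX hκ f).le

@[simp] lemma starL_apply (hκ : 0 ≤ κ) (f : XK d s κ) : starL hκ f = starX hκ f := rfl

/-- the real structure on pairs: `(f, g) ↦ (star g, star f)` -/
noncomputable def JX (hκ : 0 ≤ κ) : (XK d s κ × XK d s κ) →L[ℝ] (XK d s κ × XK d s κ) :=
  ((starL hκ).comp (ContinuousLinearMap.snd ℝ _ _)).prod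
    ((starL hκ).comp (ContinuousLinearMap.fst ℝ _ _))

@[simp] lemma JX_apply (hκ : 0 ≤ κ) (x : XK d s κ × XK d s κ) :
    JX hκ x = (starX hκ x.2, starX hκ x.1) := rfl


end Vale.Agent.P139.BU
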