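import Vale.Agent.P139.H579.NFinal
import Vale.Agent.P139.H579.N0b
import Vale.Agent.P139.H605.Fin

/-!
# P139 / BU : the nonlinear block, final theorem

A linearly stable self-similar profile produces an open ball of data on the torus with finite
lifespan.
-/

namespace Vale.Agent.P139.BU

/-- **(X4)** `IsProfile` and `ModeStable` imply blow-up for an open ball of data on the torus. -/
theorem profileBlowup {d m : ℕ} (hm : 1 ≤ m) : ProfileBlowup d m :=
  N.profileBlowup_of_step1 hm fun _ _ _ _ hQ hS =>
    H605.step1_of hm hQ hS (fun _ => N.mildProfile hm hQ) (fun _ => N.mildModes hm hQ)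

end Vale.Agent.P139.BU
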