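import Vale.Agent.P139.H460.PF2
import Vale.Agent.P139.H505.Fam2

/-!
# P139 / BU / PFinal : the `m`-uniform profile package in dimension 13 (block [P])

`exists_UP` : there is a family of profiles of the defocusing equation on `ℝ¹³` with nonlinearity
`|u|^{2m} u`, for all large `m`, with the package `UP` of uniform bounds; the frequencies and the
hitting radii lie in the box of the certificate.
-/

open MeasureTheory Set Filter Topology Complex Metric

namespace Vale.Agent.P139.BU

open Vale.Agent.P139 Vale.Agent.P139.H460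

/-- The box of the certificate, as a set. -/
def boxP : Set (ℝ × ℝ) := {p | H312.Box p.1 p.2}

lemma mem_boxP {w R : ℝ} : (w, R) ∈ boxP ↔ H312.Box w R := Iff.rfl

lemma isClosed_boxP : IsClosed boxP := by
  have h : boxP = {p : ℝ × ℝ | |p.1 - 674128401314 / 10 ^ 12| ≤ 1 / 10 ^ 6} ∩
      {p : ℝ × ℝ | |p.2 - 3264331003852 / 10 ^ 12| ≤ 1 / 10 ^ 5} := by
    ext p; rfl
  rw [h]
  exact (isClosed_le (by fun_prop) continuous_const).inter
    (isClosed_le (by fun_prop) continuous_const)

/-- **Block [P]: the profile package exists.** -/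
theorem exists_UP : ∃ (m0 : ℕ) (w R : ℕ → ℝ) (q : ℕ → ℝ → ℂ), UP 13 boxP m0 w R q := by
  obtain ⟨η0, c, r1, θz, θe, θ0, θ, x, C, e, m0, p, τ, u, Y, Y1, Qb, Qb1, h⟩ := exists_mfam
  -- the core bound
  obtain ⟨C', hC', N, hcore⟩ := H844.coreStatement 13 (by norm_num) bwm bwp bwm_pos bwm_le bwp_le
  obtain ⟨K, hK⟩ := exists_nat_ge C'
  set M := max (max m0 2) (max N K) with hM
  have hm0M : m0 ≤ M := (le_max_left _ _).trans (le_max_left _ _)
  have h2M : 2 ≤ M := (le_max_right _ _).trans (le_max_left _ _)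
  have hNM : N ≤ M := (le_max_left _ _).trans (le_max_right _ _)
  have hKM : K ≤ M := (le_max_right _ _).trans (le_max_right _ _)
  have hx : 0 < x := by
    have := (h.fp.non 0).hx
    linarith
  have fam : H505.Fam 13 bRm bRp bwm bwp η0 c C r1 θz ((1 + θ) / 2) x (Real.exp (Real.pi * 1))
      (KU.Qinf 13) (KU.Qinf' 13) (Kfar 13 r1) e M p τ u Y Y1 Qb Qb1 :=
    { hd := by norm_num
      hRm := bRm_pos
      hRp := bRp_lt
      hwm := bwm_pos
      hwp := bwp_le
      hη0 := h.η0_pos
      hc := h.c_pos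
      hC := h.C_pos
      hr1 := h.hr1
      hθz0 := h.θz0
      hθz := h.θz1
      hfun := h.fun_
      hθf0 := h.hθf0.le
      hθf := h.hθf
      hx0 := hx
      m0_two := h2M
      core4 := by
        intro m hm r hr
        have hMm := h.M m (hm0M.trans hm)
        have hτ4 : τ m ≤ 4 := by have := hMm.hτ.2; have := bRp_lt; linarith
        have hq0 : 0 < H505.q0f (2 * m) (p m) :=
          H505.q0f_pos hMm.hp.1.1 (bwm_pos.trans_le hMm.hp.2.1)
        have h1 := (hcore (2 * m) (by omega) (p m).2 hMm.hp.2 (H505.q0f (2 * m) (p m)) hq0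
          (τ m + 1) (τ m) hτ4 (by linarith) _ _ (H505.regSol_Qf (by norm_num) _ _ _)
          hMm.first).1 r hr
        have hmK : C' ≤ ((2 * m : ℕ) : ℝ) := by
          refine hK.trans ?_
          have : K ≤ 2 * m := by omega
          exact_mod_cast this
        have h3 : C' / ((2 * m : ℕ) : ℝ) ≤ 1 := by
          have : 0 < ((2 * m : ℕ) : ℝ) := by
            have : 0 < 2 * m := by omega
            exact_mod_cast this
          rw [div_le_one this]; exact hmK
        have h4 : (p m).2 ≤ 1 := hMm.hp.2.2.trans bwp_le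
        linarith
      mat := fun m hm => h.M m (hm0M.trans hm)
      far := fun m hm => h.farSol5 (hm0M.trans hm)
      ff := fun m hm => by
        obtain ⟨f, hf, hfb, hfe⟩ := (h.F m (hm0M.trans hm)).holo
        refine ⟨f, hf, fun z hz => ?_, hfe⟩
        rw [← am_eq_aa]
        exact hfb z hz }
  refine ⟨M, fun m => (p m).2, τ, fun m => H505.Qf 13 (2 * m) (p m), fam.up ?_ h.zero⟩
  intro w hw R hR
  exact box_of_mem hw hR

/-- In dimension 13 and for every large `m`, the defocusing equation `i u_t + Δu = |u|^{2m} u` has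
a smooth self-similar blow-up profile. -/
theorem exists_profile13 : ∃ m0 : ℕ, ∀ m, m0 ≤ m → ∃ w : ℝ, 0 < w ∧ ∃ Q : E 13 → ℂ,
    IsProfile 13 m w Q := by
  obtain ⟨m0, w, R, q, h⟩ := exists_UP
  exact ⟨m0, fun m hm => ⟨w m, h.wpos m hm, _, h.prof m hm⟩⟩

end Vale.Agent.P139.BU
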