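import Vale.Agent.P139.BU.Target

/-! # P139, block (iv), part 4: tame estimates and persistence of regularity in the weighted
Wiener algebras; the weakest sufficient form of the deterministic input -/

open Set Metric Filter Topology MeasureTheory ProbabilityTheory
open scoped NNReal ENNReal ComplexConjugate

namespace Vale.Agent.P139.BU

open Vale.Agent.P139.A Vale.Agent.P139.A.WA Vale.Agent.P139.H836 Vale.Agent.P139.H203

variable {d k s : ℕ}

/-! ## Tame estimates -/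

theorem W_add_tame (m n : Lat d) : W s (m + n) ≤ 2 ^ s * (W s m + W s n) := by
  unfold W
  have hm : 0 ≤ ‖m‖ := norm_nonneg m
  have hn : 0 ≤ ‖n‖ := norm_nonneg n
  have h1 : 1 + ‖m + n‖ ≤ 2 * max (1 + ‖m‖) (1 + ‖n‖) := by
    have := norm_add_le m n
    have h2 := le_max_left (1 + ‖m‖) (1 + ‖n‖)
    have h3 := le_max_right (1 + ‖m‖) (1 + ‖n‖)
    linarith
  calc (1 + ‖m + n‖) ^ s ≤ (2 * max (1 + ‖m‖) (1 + ‖n‖)) ^ s := by
        gcongr
    _ = 2 ^ s * (max (1 + ‖m‖) (1 + ‖n‖)) ^ s := mul_pow _ _ _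
    _ ≤ 2 ^ s * ((1 + ‖m‖) ^ s + (1 + ‖n‖) ^ s) := by
        gcongr
        rcases max_cases (1 + ‖m‖) (1 + ‖n‖) with h | h
        · rw [h.1]
          have : 0 ≤ (1 + ‖n‖) ^ s := by positivity
          linarith
        · rw [h.1]
          have : 0 ≤ (1 + ‖m‖) ^ s := by positivity
          linarith

theorem summable_shear' {f g : Lat d → ℝ} (hf : Summable f) (hg : Summable g)
    (hf0 : ∀ n, 0 ≤ f n) (hg0 : ∀ n, 0 ≤ g n) :
    Summable fun p : Lat d × Lat d => f p.2 * g (p.1 - p.2) :=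
  (shear d).summable_iff.2 (hf.mul_of_nonneg hg hf0 hg0)

theorem tsum_shear' {f g : Lat d → ℝ} (hf : Summable f) (hg : Summable g)
    (hf0 : ∀ n, 0 ≤ f n) (hg0 : ∀ n, 0 ≤ g n) :
    ∑' n, ∑' m, f m * g (n - m) = (∑' n, f n) * ∑' n, g n := by
  rw [← (summable_shear' hf hg hf0 hg0).tsum_prod,
    Summable.tsum_mul_tsum hf hg (hf.mul_of_nonneg hg hf0 hg0)]
  exact (shear d).tsum_eq (fun q : Lat d × Lat d => f q.1 * g q.2)

/-- The tame product estimate in the weighted Wiener algebra. -/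
theorem norm_mul_tame (a b : WA d s) :
    ‖a * b‖ ≤ 2 ^ s * (‖a‖ * ‖down b‖ + ‖down a‖ * ‖b‖) := by
  set fa : Lat d → ℝ := fun n => ‖coef a n‖ with hfa
  set fb : Lat d → ℝ := fun n => ‖coef b n‖ with hfb
  set ga : Lat d → ℝ := fun n => W s n * ‖coef a n‖ with hga
  set gb : Lat d → ℝ := fun n => W s n * ‖coef b n‖ with hgb
  have fa0 : ∀ n, 0 ≤ fa n := fun n => norm_nonneg _
  have fb0 : ∀ n, 0 ≤ fb n := fun n => norm_nonneg _
  have ga0 : ∀ m, 0 ≤ ga m := fun m => mul_nonneg (W_pos m).le (norm_nonneg _)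
  have gb0 : ∀ m, 0 ≤ gb m := fun m => mul_nonneg (W_pos m).le (norm_nonneg _)
  have hs1 := summable_shear' a.summable b.summable_norm ga0 fb0
  have hs2 := summable_shear' a.summable_norm b.summable fa0 gb0
  have ht1 := tsum_shear' a.summable b.summable_norm ga0 fb0
  have ht2 := tsum_shear' a.summable_norm b.summable fa0 gb0
  have h1 : ∀ n, W s n * ‖coef (a * b) n‖ ≤
      2 ^ s * (∑' m, ga m * fb (n - m) + ∑' m, fa m * gb (n - m)) := by
    intro n
    have hn1 : Summable fun m => ga m * fb (n - m) := hs1.prod_factor n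
    have hn2 : Summable fun m => fa m * gb (n - m) := hs2.prod_factor n
    rw [coef_mul, ← hn1.tsum_add hn2, ← tsum_mul_left]
    calc W s n * ‖∑' m, coef a m * coef b (n - m)‖
        ≤ W s n * ∑' m, ‖coef a m * coef b (n - m)‖ := by
          gcongr
          · exact (W_pos n).le
          · exact norm_tsum_le_tsum_norm (summable_conv_norm a b n)
      _ = ∑' m, W s n * ‖coef a m * coef b (n - m)‖ := tsum_mul_left.symm
      _ ≤ _ := by
          refine ((summable_conv_norm a b n).mul_left _).tsum_le_tsum (fun m => ?_)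
            ((hn1.add hn2).mul_left _)
          have h : W s n ≤ 2 ^ s * (W s m + W s (n - m)) := by
            have := W_add_tame (s := s) m (n - m)
            rwa [add_sub_cancel] at this
          rw [norm_mul]
          calc W s n * (‖coef a m‖ * ‖coef b (n - m)‖)
              ≤ (2 ^ s * (W s m + W s (n - m))) * (‖coef a m‖ * ‖coef b (n - m)‖) := by gcongr
            _ = 2 ^ s * (ga m * fb (n - m) + fa m * gb (n - m)) := by
                simp only [hga, hgb, hfa, hfb]; ring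
  have hp1 : Summable fun n => ∑' m, ga m * fb (n - m) := hs1.prod
  have hp2 : Summable fun n => ∑' m, fa m * gb (n - m) := hs2.prod
  have h2 := (a * b).summable.tsum_le_tsum h1 ((hp1.add hp2).mul_left _)
  rw [tsum_mul_left, hp1.tsum_add hp2, ht1, ht2, ← norm_eq (a * b)] at h2
  rw [norm_down, norm_down, norm_eq a, norm_eq b]
  exact h2

theorem down_mul (a b : WA d s) : down (a * b) = down a * down b := by
  ext n
  rw [coef_down, coef_mul, coef_mul]
  simp only [coef_down]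

theorem down_one : down (1 : WA d s) = 1 := by
  ext n
  rw [coef_down, coef_one, coef_one]

theorem down_conjL (a : WA d s) : down (conjL a) = conjL (down a) := by
  ext n
  rw [coef_down, coef_conjL, coef_conjL, coef_down]

theorem norm_conjL (a : WA d s) : ‖conjL a‖ = ‖a‖ := by
  rw [← star_eq, norm_star]

/-- Multiplying a tame element by a tame factor. -/
theorem tame_step {B A C : ℝ} {j : ℕ} (hB : 0 ≤ B) {x y : WA d s}
    (hx0 : ‖down x‖ ≤ B ^ (j + 1)) (hx : ‖x‖ ≤ C * B ^ j * A) (hy0 : ‖down y‖ ≤ B)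
    (hy : ‖y‖ ≤ A) (hC : 0 ≤ C) :
    ‖down (x * y)‖ ≤ B ^ (j + 2) ∧ ‖x * y‖ ≤ (2 ^ s * (C + 1)) * B ^ (j + 1) * A := by
  have hA : 0 ≤ A := (norm_nonneg _).trans hy
  constructor
  · rw [down_mul]
    calc ‖down x * down y‖ ≤ ‖down x‖ * ‖down y‖ := norm_mul_le' _ _
      _ ≤ B ^ (j + 1) * B := by gcongr
      _ = B ^ (j + 2) := by ring
  · calc ‖x * y‖ ≤ 2 ^ s * (‖x‖ * ‖down y‖ + ‖down x‖ * ‖y‖) := norm_mul_tame _ _
      _ ≤ 2 ^ s * ((C * B ^ j * A) * B + B ^ (j + 1) * A) := by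
          gcongr
      _ = _ := by ring

/-- The constants of the tame estimate. -/
noncomputable def tameC (s : ℕ) : ℕ → ℝ
  | 0 => 1
  | j + 1 => 2 ^ s * (tameC s j + 1)

theorem tameC_nonneg (s j : ℕ) : 0 ≤ tameC s j := by
  induction j with
  | zero => exact zero_le_one
  | succ j ih => unfold tameC; positivity

theorem tame_pow (a : WA d s) (j : ℕ) : ‖down (a ^ (j + 1))‖ ≤ ‖down a‖ ^ (j + 1) ∧
    ‖a ^ (j + 1)‖ ≤ tameC s j * ‖down a‖ ^ j * ‖a‖ := by
  induction j with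
  | zero => simp [tameC]
  | succ j ih =>
    rw [pow_succ a]
    exact tame_step (norm_nonneg _) ih.1 ih.2 le_rfl le_rfl (tameC_nonneg s j)

/-- The tame estimate of the nonlinearity. -/
theorem norm_F_tame (m : ℕ) (a : WA d s) :
    ‖F m a‖ ≤ tameC s (2 * m) * ‖down a‖ ^ (2 * m) * ‖a‖ := by
  unfold F
  have h : ∀ j : ℕ, ‖down (a ^ (m + 1) * conjL a ^ j)‖ ≤ ‖down a‖ ^ (m + j + 1) ∧
      ‖a ^ (m + 1) * conjL a ^ j‖ ≤ tameC s (m + j) * ‖down a‖ ^ (m + j) * ‖a‖ := by
    intro j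
    induction j with
    | zero => simpa using tame_pow a m
    | succ j ih =>
      rw [pow_succ (conjL a), ← mul_assoc]
      have h1 : ‖down (conjL a)‖ ≤ ‖down a‖ := by rw [down_conjL, norm_conjL]
      exact tame_step (norm_nonneg _) ih.1 ih.2 h1 (norm_conjL a).le (tameC_nonneg s _)
  have := (h m).2
  rwa [← two_mul] at this

theorem norm_F_le (m : ℕ) (a : WA d s) : ‖F m a‖ ≤ ‖a‖ ^ (2 * m + 1) := by
  rw [← nl_eq_F]
  exact nl_norm_le m a

/-! ## Growth of the high norm -/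

theorem norm_Ug (t : ℝ) (a : WA d s) : ‖Ug t a‖ = ‖a‖ := (wienerModel d s).norm_U t a

theorem Ug_Ug_neg (t : ℝ) (a : WA d s) : Ug t (Ug (-t) a) = a := by
  ext n
  rw [coef_Ug, coef_Ug, ← mul_assoc, ← Complex.exp_add]
  have : -(Complex.I * sqNorm n * t) + -(Complex.I * sqNorm n * ((-t : ℝ) : ℂ)) = 0 := by
    push_cast; ring
  rw [this, Complex.exp_zero, one_mul]

theorem field_eq (m : ℕ) (t : ℝ) (x : WA d s) :
    (wienerModel d s).field m t x = (-Complex.I) • Ug (-t) (F m (Ug t x)) := by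
  rw [← nl_eq_F]
  rfl

theorem norm_field (m : ℕ) (t : ℝ) (x : WA d s) :
    ‖(wienerModel d s).field m t x‖ = ‖F m (Ug t x)‖ := by
  rw [field_eq, norm_smul, norm_Ug, norm_neg, Complex.norm_I, one_mul]

/-- The high norm grows at most exponentially, with a rate controlled by the low norm. -/
theorem curve_growth {m : ℕ} {T : ℝ} {u : ℝ → WA d s} (hu : Curve m T u) {B : ℝ}
    (hB : ∀ t ∈ Icc 0 T, ‖down (u t)‖ ≤ B) :
    ∀ t ∈ Icc 0 T, ‖u t‖ ≤ ‖u 0‖ * Real.exp (tameC s (2 * m) * B ^ (2 * m) * t) := by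
  intro t ht
  have hT : 0 ≤ T := ht.1.trans ht.2
  have hB0 : 0 ≤ B := (norm_nonneg _).trans (hB 0 ⟨le_rfl, hT⟩)
  set K : ℝ := tameC s (2 * m) * B ^ (2 * m) with hK
  have hi := interaction hT hu
  have hnh : ∀ r ∈ Ico (0 : ℝ) T, Icc 0 T ∈ 𝓝[Ici r] r := by
    intro r hr
    exact mem_of_superset (Icc_mem_nhdsGE hr.2) (Icc_subset_Icc_left hr.1)
  have h1 := norm_le_gronwallBound_of_norm_deriv_right_le (f := fun t => Ug (-t) (u t))
    (f' := fun t => (wienerModel d s).field m t (Ug (-t) (u t))) (δ := ‖u 0‖) (K := K) (ε := 0)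
    (a := 0) (b := T) (fun r hr => (hi r hr).continuousWithinAt)
    (fun r hr => (hi r (Ico_subset_Icc_self hr)).mono_of_mem_nhdsWithin (hnh r hr))
    (by simp only [neg_zero]; rw [norm_Ug]) (fun r hr => ?_) t ht
  · rw [gronwallBound_ε0, norm_Ug, sub_zero] at h1
    exact h1
  · rw [norm_field, Ug_Ug_neg, norm_Ug, add_zero]
    refine (norm_F_tame m (u r)).trans ?_
    have h2 := hB r (Ico_subset_Icc_self hr)
    have h3 := tameC_nonneg s (2 * m)
    rw [hK]
    gcongr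

/-! ## Persistence of regularity -/

/-- Persistence: a curve in the Wiener algebra with datum in the weighted Wiener algebra is a
curve there, on the same time interval. -/
theorem persist {m : ℕ} {T : ℝ} (hT : 0 ≤ T) {u : ℝ → WA d 0} (hu : Curve m T u) (a : WA d s)
    (ha : u 0 = down a) : ∃ v : ℝ → WA d s, v 0 = a ∧ Curve m T v ∧
      ∀ t ∈ Icc 0 T, down (v t) = u t := by
  obtain ⟨B, hB⟩ := isCompact_Icc.exists_bound_of_continuousOn hu.cont
  have hB0 : 0 ≤ B := (norm_nonneg _).trans (hB 0 ⟨le_rfl, hT⟩)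
  set K : ℝ := tameC s (2 * m) * B ^ (2 * m) with hK
  have hK0 : 0 ≤ K := mul_nonneg (tameC_nonneg _ _) (by positivity)
  set M : ℝ := ‖a‖ * Real.exp (K * T) with hM
  have hM0 : 0 ≤ M := by positivity
  set Mo := wienerModel d s with hMo
  have hρ : 0 < M + 1 := by positivity
  obtain ⟨v, hv0, hv⟩ := Mo.exists_flow m hρ hT a
  have hvc : ContinuousOn v (Icc 0 T) := HasDerivWithinAt.continuousOn hv
  -- as long as the cut off is inactive we have a curve
  have hcur : ∀ t ∈ Icc 0 T, (∀ r ∈ Icc 0 t, ‖v r‖ ≤ M + 1) →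
      Curve m t (fun r => Ug r (v r)) := by
    intro t ht hb
    refine ⟨(Mo.continuousOn_U hvc).mono (Icc_subset_Icc_right ht.2), fun r hr n => ?_⟩
    have h2 := Mo.coeff_deriv hρ (hv r ⟨hr.1, hr.2.trans ht.2⟩) (hb r hr) n
    refine (h2.congr_deriv ?_).mono (Icc_subset_Icc_right ht.2)
    rw [nl_eq_F]
    show -Complex.I * ((sqNorm n : ℂ) * coef (Mo.U r (v r)) n + coef (F m (Mo.U r (v r))) n) =
      -Complex.I * (sqNorm n * coef (Mo.U r (v r)) n) - Complex.I * coef (F m (Mo.U r (v r))) n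
    ring
  have hU0 : (Ug 0 (v 0) : WA d s) = a := by
    ext n
    rw [hv0, coef_Ug]
    simp
  -- the bootstrap
  have hstep : ∀ t ∈ Icc 0 T, ‖v t‖ < M + 1 ∧ (0 : ℝ) < 1 := by
    refine continuity_bootstrap (f := fun t => ‖v t‖) (g := fun _ => 0) (A := M + 1) (B := 1)
      hvc.norm continuousOn_const (fun t ht h => ?_) ?_
    · have hb : ∀ r ∈ Icc 0 t, ‖v r‖ ≤ M + 1 := fun r hr => (h r hr).1
      have hc := hcur t ht hb
      have heq : ∀ r ∈ Icc 0 t, down (Ug r (v r)) = u r :=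
        curve_unique (curve_down hc) (curve_mono ht.2 hu) (by simp only [hU0, ha])
      have hg := curve_growth hc (B := B) (fun r hr => by
        simp only [heq r hr]
        exact hB r ⟨hr.1, hr.2.trans ht.2⟩) t ⟨ht.1, le_rfl⟩
      simp only [norm_Ug, hU0] at hg
      refine ⟨?_, zero_lt_one⟩
      refine lt_of_le_of_lt (hg.trans ?_) (lt_add_one M)
      rw [hM, hK]
      gcongr
      exact ht.2
    · refine ⟨?_, zero_lt_one⟩
      simp only [hv0]
      have h1 : (1 : ℝ) ≤ Real.exp (K * T) := Real.one_le_exp (by positivity)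
      have h2 : ‖a‖ ≤ M := by
        rw [hM]; exact le_mul_of_one_le_right (norm_nonneg _) h1
      linarith
  have hc := hcur T ⟨hT, le_rfl⟩ fun r hr => (hstep r hr).1.le
  refine ⟨fun r => Ug r (v r), hU0, hc, ?_⟩
  exact curve_unique (curve_down hc) hu (by simp only [hU0, ha])

/-- Persistence for `H^k` solutions, `2k > d`. -/
theorem persist_sobolev (hk : d < 2 * k) {m : ℕ} {T : ℝ} (hT : 0 ≤ T) {u : ℝ → Lat d → ℂ}
    (hu : IsSolution d (2 * m + 1) k T u) (a : WA d s) (ha : u 0 = coef a) :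
    ∃ v : ℝ → WA d s, v 0 = a ∧ Curve m T v ∧ ∀ t ∈ Icc 0 T, coef (v t) = u t := by
  have h0 : toWA (u 0) = down a := by
    ext n
    rw [coef_curve hk hu ⟨le_rfl, hT⟩, coef_down, ha]
  obtain ⟨v, hv0, hv, he⟩ := persist hT (curve_of hk hu) a h0
  refine ⟨v, hv0, hv, fun t ht => ?_⟩
  funext n
  rw [← coef_curve hk hu ht n, ← he t ht, coef_down]

/-! ## The weakest sufficient form of the deterministic input -/

/-- No solution with datum in an open ball of `A_s(T^d)` lives up to `T₀`: the solution may be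
assumed to be a curve in `A_s(T^d)`. -/
def NoLongBall (d m s : ℕ) (T₀ : ℝ) : Prop :=
  ∃ v : WA d s, ∃ r : ℝ, 0 < r ∧ ∀ u : ℝ → WA d s, ‖u 0 - v‖ < r → ¬ Curve m T₀ u

/-- No solution with datum in an open ball of `A_s(T^d)` is global. -/
def NoGlobalBall (d m s : ℕ) : Prop :=
  ∃ v : WA d s, ∃ r : ℝ, 0 < r ∧ ∀ u : ℝ → WA d s, ‖u 0 - v‖ < r → ¬ ∀ T, Curve m T u

theorem NoLongBall.noGlobal {m : ℕ} {T₀ : ℝ} (h : NoLongBall d m s T₀) : NoGlobalBall d m s := by
  obtain ⟨v, r, hr, H⟩ := h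
  exact ⟨v, r, hr, fun u hu hc => H u hu (hc T₀)⟩

/-- If the lifespan in some `H^k`, `k > d/2`, is infinite, there is a global curve. -/
theorem global_curve (hk : d < 2 * k) {m : ℕ} (a : WA d s)
    (h : lifespan d (2 * m + 1) k (coef a) = ∞) :
    ∃ u : ℝ → WA d s, u 0 = a ∧ ∀ T, Curve m T u := by
  have h1 : ∀ N : ℕ, ∃ v : ℝ → WA d s, v 0 = a ∧ Curve m N v := by
    intro N
    have h2 : ((N : ℝ≥0) : ℝ≥0∞) < lifespan d (2 * m + 1) k (coef a) := by
      rw [h]; exact ENNReal.coe_lt_top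
    unfold lifespan at h2
    obtain ⟨T, hT⟩ := lt_iSup_iff.1 h2
    obtain ⟨⟨u, hu, hu0⟩, hTN⟩ := lt_iSup_iff.1 hT
    have h3 : (N : ℝ) ≤ T := by
      have : (N : ℝ≥0) < T := by exact_mod_cast hTN
      exact_mod_cast this.le
    obtain ⟨v, hv0, hv, -⟩ := persist_sobolev hk T.2 hu a hu0
    exact ⟨v, hv0, curve_mono h3 hv⟩
  choose v hv0 hv using h1
  have hagree : ∀ (M N : ℕ) (t : ℝ), 0 ≤ t → t ≤ M → t ≤ N → v M t = v N t := by
    intro M N t ht hM hN
    exact curve_unique (curve_mono hM (hv M)) (curve_mono hN (hv N)) (by rw [hv0, hv0]) t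
      ⟨ht, le_rfl⟩
  have hagree' : ∀ (N : ℕ) (t : ℝ), t ∈ Icc (0 : ℝ) N → v ⌈t⌉₊ t = v N t := fun N t ht =>
    hagree _ _ t ht.1 (Nat.le_ceil t) ht.2
  refine ⟨fun t => v ⌈t⌉₊ t, by simp only [Nat.ceil_zero]; exact hv0 0, fun T => ?_⟩
  have hN : Icc (0 : ℝ) T ⊆ Icc (0 : ℝ) ⌈T⌉₊ := Icc_subset_Icc_right (Nat.le_ceil T)
  refine ⟨?_, fun t ht n => ?_⟩
  · refine ((hv ⌈T⌉₊).cont.mono hN).congr fun t ht => ?_
    exact hagree' _ t (hN ht)
  · have h2 := ((hv ⌈T⌉₊).eqn t (hN ht) n).mono hN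
    have h3 := h2.congr (f₁ := fun s => coef (v ⌈s⌉₊ s) n) (fun r hr => by
      simp only [hagree' _ r (hN hr)]) (by simp only [hagree' _ t (hN ht)])
    simp only [hagree' _ t (hN ht)] at h3 ⊢
    exact h3

/-- `T*(ω) ≤ T₀` with positive probability for every `α > s + d`. -/
theorem prob_noLong {m : ℕ} {T₀ : ℝ} (h : NoLongBall d m s T₀) {Ω : Type*} [MeasurableSpace Ω]
    (P : Measure Ω) [IsProbabilityMeasure P] (g : Lat d → Ω → ℂ) (hgm : ∀ n, Measurable (g n))
    (hind : iIndepFun g P) (hg : ∀ n, P.map (g n) = stdComplexGaussian) {α : ℝ}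
    (hα : (s : ℝ) + d < α) :
    0 < P {ω | ∀ k : ℕ, d < 2 * k →
      lifespan d (2 * m + 1) k (datum g α ω) ≤ ENNReal.ofReal T₀} := by
  obtain ⟨v, r, hr, H⟩ := h
  refine (datum_ball_pos P g hgm hind hg hα v hr).trans_le (measure_mono ?_)
  rintro ω ⟨a, ha, har⟩ k hk
  unfold lifespan
  refine iSup₂_le fun T hT => ?_
  obtain ⟨u, hu, hu0⟩ := hT
  obtain ⟨w, hw0, hw, -⟩ := persist_sobolev hk T.2 hu a (hu0.trans ha.symm)
  have h1 : (T : ℝ) < T₀ := by
    by_contra hcon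
    rw [not_lt] at hcon
    exact H w (by rw [hw0]; exact har) (curve_mono hcon hw)
  rw [← ENNReal.ofReal_coe_nnreal]
  exact ENNReal.ofReal_le_ofReal h1.le

/-- `T*(ω) < ∞` with positive probability for every `α > s + d`. -/
theorem prob_noGlobal {m : ℕ} (h : NoGlobalBall d m s) {Ω : Type*} [MeasurableSpace Ω]
    (P : Measure Ω) [IsProbabilityMeasure P] (g : Lat d → Ω → ℂ) (hgm : ∀ n, Measurable (g n))
    (hind : iIndepFun g P) (hg : ∀ n, P.map (g n) = stdComplexGaussian) {α : ℝ}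
    (hα : (s : ℝ) + d < α) :
    0 < P {ω | ∀ k : ℕ, d < 2 * k → lifespan d (2 * m + 1) k (datum g α ω) < ∞} := by
  obtain ⟨v, r, hr, H⟩ := h
  refine (datum_ball_pos P g hgm hind hg hα v hr).trans_le (measure_mono ?_)
  rintro ω ⟨a, ha, har⟩ k hk
  by_contra hcon
  rw [not_lt, top_le_iff, ← ha] at hcon
  obtain ⟨w, hw0, hw⟩ := global_curve hk a hcon
  exact H w (by rw [hw0]; exact har) hw

theorem NoGlobalBall.posProb {m : ℕ} (h : NoGlobalBall d m s) : PosProb d m :=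
  ⟨s + d, fun _ hα _ _ P _ g hgm hind hg => prob_noGlobal h P g hgm hind hg hα⟩

/-- The reduction in its weakest form. -/
theorem NoGlobalBall.not_Q1 {m : ℕ} (hm : 1 ≤ m) (hsc : 1 < (d : ℝ) / 2 - 1 / m)
    (h : NoGlobalBall d m s) : ¬ Q1 := h.posProb.not_Q1 hm hsc

/-- A blow-up ball is a ball without global solutions. -/
theorem BlowBall.noGlobal {m : ℕ} (h : BlowBall d m s) : NoGlobalBall d m s := by
  obtain ⟨v, r, hr, H⟩ := h
  refine ⟨v, r, hr, fun u hu hc => ?_⟩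
  obtain ⟨s', T, w, hw0, hw⟩ := H (u 0) hu
  obtain ⟨R, hR⟩ := isCompact_Icc.exists_bound_of_continuousOn (curve_down (hc T)).cont
  obtain ⟨t, ht0, htT, ht⟩ := hw.unbdd R
  have h1 : down (w t) = down (u t) :=
    curve_unique (curve_down (hw.curve t ht0 htT)) (curve_down (hc t)) (by
      ext n
      simp only [coef_down, hw0]) t ⟨ht0, le_rfl⟩
  have h5 := hR t ⟨ht0, htT.le⟩
  rw [← h1, norm_down] at h5
  linarith

end Vale.Agent.P139.BU
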