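import Vale.Agent.P139.BU.Blow

/-! # P139, block (iv), part 2: the Gaussian datum enters every open ball of the weighted Wiener
algebra with positive probability -/

open Set Metric Filter Topology MeasureTheory ProbabilityTheory
open scoped NNReal ENNReal ComplexConjugate

namespace Vale.Agent.P139.BU

open Vale.Agent.P139.A Vale.Agent.P139.A.WA Vale.Agent.P139.H836 Vale.Agent.P139.H203

variable {d k s : ℕ}

theorem gauss_pos' {a b : ℝ} (hr : a < b) : 0 < gaussianReal 0 (1 / 2) (Ioo a b) := by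
  rw [pos_iff_ne_zero]
  intro h
  have h1 := gaussianReal_absolutelyContinuous' 0 (v := 1 / 2) (by norm_num) h
  rw [Real.volume_Ioo] at h1
  simp only [ENNReal.ofReal_eq_zero] at h1
  linarith

theorem std_pos' (z : ℂ) {r : ℝ} (hr : 0 < r) : 0 < stdComplexGaussian (closedBall z r) := by
  unfold stdComplexGaussian
  rw [Measure.map_apply measurable_mkC measurableSet_closedBall]
  refine lt_of_lt_of_le ?_ (measure_mono
    (s := Ioo (z.re - r / 2) (z.re + r / 2) ×ˢ Ioo (z.im - r / 2) (z.im + r / 2)) ?_)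
  · rw [Measure.prod_prod]
    exact ENNReal.mul_pos (gauss_pos' (by linarith)).ne' (gauss_pos' (by linarith)).ne'
  · rintro ⟨x, y⟩ ⟨hx, hy⟩
    simp only [mem_preimage, mem_closedBall, dist_eq_norm]
    have h1 := Complex.norm_le_abs_re_add_abs_im ((⟨x, y⟩ : ℂ) - z)
    simp only [Complex.sub_re, Complex.sub_im] at h1
    have h2 : |x - z.re| ≤ r / 2 := by
      rw [abs_le]; constructor <;> linarith [hx.1, hx.2]
    have h3 : |y - z.im| ≤ r / 2 := by
      rw [abs_le]; constructor <;> linarith [hy.1, hy.2]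
    linarith

theorem meas_low' {Ω : Type*} [MeasurableSpace Ω] (g : Lat d → Ω → ℂ) (S : Finset (Lat d))
    (z : Lat d → ℂ) (r : ℝ) (h : ∀ n ∈ S, Measurable (g n)) :
    MeasurableSet (⋂ n ∈ S, g n ⁻¹' closedBall (z n) r) :=
  Finset.measurableSet_biInter _ fun n hn => h n hn measurableSet_closedBall

/-- Full support: a weighted `ℓ¹` ball around a finite-weight centre has positive probability. -/
theorem ball_pos {Ω : Type*} [mΩ : MeasurableSpace Ω] (P : Measure Ω) [IsProbabilityMeasure P]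
    (g : Lat d → Ω → ℂ) (hm : ∀ n, Measurable (g n)) (hind : iIndepFun g P)
    (hg : ∀ n, P.map (g n) = stdComplexGaussian) {q : Lat d → ℝ} (hq0 : ∀ n, 0 ≤ q n)
    (hq : Summable q) {z : Lat d → ℂ} (hz : Summable fun n => q n * ‖z n‖) {ρ : ℝ} (hρ : 0 < ρ) :
    0 < P {ω | ∑' n, ENNReal.ofReal (q n) * ‖g n ω - z n‖ₑ ≤ ENNReal.ofReal ρ} := by
  classical
  have hqz0 : ∀ n, 0 ≤ q n * ‖z n‖ := fun n => mul_nonneg (hq0 n) (norm_nonneg _)
  set mom : ℝ≥0∞ := ∫⁻ z, ‖z‖ₑ ∂stdComplexGaussian with hmom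
  have hmomT : mom ≠ ∞ := std_moment.ne
  set η : ℝ := ρ / (16 * (mom.toReal + 1)) with hη
  have hm0 : 0 ≤ mom.toReal := ENNReal.toReal_nonneg
  have hη0 : 0 < η := by positivity
  -- a finite set carrying almost everything
  obtain ⟨S, hS1, hS2⟩ : ∃ S : Finset (Lat d), (∑' n, q n) - η < ∑ n ∈ S, q n ∧
      (∑' n, q n * ‖z n‖) - ρ / 4 < ∑ n ∈ S, q n * ‖z n‖ := by
    have h1 : Tendsto (fun s : Finset (Lat d) => ∑ n ∈ s, q n) atTop (𝓝 (∑' n, q n)) := hq.hasSum
    have h2 : Tendsto (fun s : Finset (Lat d) => ∑ n ∈ s, q n * ‖z n‖) atTop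
      (𝓝 (∑' n, q n * ‖z n‖)) := hz.hasSum
    exact ((h1.eventually (lt_mem_nhds (sub_lt_self _ hη0))).and
      (h2.eventually (lt_mem_nhds (sub_lt_self _ (by positivity : (0 : ℝ) < ρ / 4))))).exists
  have htail : ∀ f : Lat d → ℝ, Summable f → ∑' n, (if n ∈ S then 0 else f n) =
      ∑' n, f n - ∑ n ∈ S, f n := by
    intro f hf
    have h1 : ∀ n, (if n ∈ S then 0 else f n) = f n - (if n ∈ S then f n else 0) := fun n => by
      split_ifs <;> simp
    have h2 : Summable fun n => if n ∈ S then f n else 0 :=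
      summable_of_ne_finset_zero (s := S) fun n hn => by simp [hn]
    have h3 : (∑' n, if n ∈ S then f n else 0) = ∑ n ∈ S, f n := by
      rw [tsum_eq_sum (s := S) (fun n hn => if_neg hn)]
      exact Finset.sum_congr rfl fun n hn => if_pos hn
    rw [tsum_congr h1, hf.tsum_sub h2, h3]
  set q' : Lat d → ℝ := fun n => if n ∈ S then 0 else q n with hq'
  have hq'0 : ∀ n, 0 ≤ q' n := fun n => by simp only [hq']; split_ifs <;> simp [hq0]
  have hq's : Summable q' := Summable.of_nonneg_of_le hq'0 (fun n => by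
    simp only [hq']; split_ifs <;> simp [hq0]) hq
  have hq't : ∑' n, q' n < η := by
    rw [htail q hq]; linarith
  -- the tail
  set τ : Ω → ℝ≥0∞ := fun ω => ∑' n, if n ∈ S then 0 else ENNReal.ofReal (q n) * ‖g n ω‖ₑ with hτ
  have hτm : Measurable τ := meas_tail g S _ fun n _ => hm n
  have hτi : ∫⁻ ω, τ ω ∂P ≤ ENNReal.ofReal (ρ / 16) := by
    have h1 : ∀ n, Measurable fun ω => if n ∈ S then (0 : ℝ≥0∞) else
        ENNReal.ofReal (q n) * ‖g n ω‖ₑ := by
      intro n
      by_cases hn : n ∈ S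
      · simp only [hn, if_true]; exact measurable_const
      · simp only [hn, if_false]; exact (hm n).enorm.const_mul _
    simp only [hτ]
    rw [lintegral_tsum fun n => (h1 n).aemeasurable]
    have h2 : ∀ n, ∫⁻ ω, (if n ∈ S then (0 : ℝ≥0∞) else ENNReal.ofReal (q n) * ‖g n ω‖ₑ) ∂P =
        ENNReal.ofReal (q' n) * mom := by
      intro n
      by_cases hn : n ∈ S
      · simp [hn, hq']
      · simp only [hn, hq', if_false]
        rw [lintegral_const_mul _ (hm n).enorm, hmom, ← hg n, lintegral_map (by fun_prop) (hm n)]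
    simp_rw [h2]
    rw [ENNReal.tsum_mul_right, ← ENNReal.ofReal_tsum_of_nonneg hq'0 hq's,
      ← ENNReal.ofReal_toReal hmomT, ← ENNReal.ofReal_mul (tsum_nonneg hq'0)]
    apply ENNReal.ofReal_le_ofReal
    calc (∑' n, q' n) * mom.toReal ≤ η * (mom.toReal + 1) := by
          gcongr
          linarith
      _ = ρ / 16 := by rw [hη]; field_simp
  have hB : 0 < P {ω | τ ω < ENNReal.ofReal (ρ / 4)} := by
    have h1 := mul_meas_ge_le_lintegral (μ := P) hτm (ENNReal.ofReal (ρ / 4))
    have h2 : P {ω | ENNReal.ofReal (ρ / 4) ≤ τ ω} ≤ 1 / 2 := by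
      have h3 : ENNReal.ofReal (ρ / 4) * P {ω | ENNReal.ofReal (ρ / 4) ≤ τ ω} ≤
          ENNReal.ofReal (ρ / 4) * (1 / 2) := by
        refine (h1.trans hτi).trans ?_
        rw [show (1 / 2 : ℝ≥0∞) = ENNReal.ofReal (1 / 2) by
          rw [ENNReal.ofReal_div_of_pos (by norm_num)]; simp, ← ENNReal.ofReal_mul (by positivity)]
        exact ENNReal.ofReal_le_ofReal (by linarith)
      exact (ENNReal.mul_le_mul_iff_right (ENNReal.ofReal_pos.2 (by positivity)).ne'
        ENNReal.ofReal_ne_top).1 h3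
    have h3 : {ω | τ ω < ENNReal.ofReal (ρ / 4)} = {ω | ENNReal.ofReal (ρ / 4) ≤ τ ω}ᶜ := by
      ext ω; simp
    rw [h3, prob_compl_eq_one_sub (measurableSet_le measurable_const hτm)]
    have h4 : (1 / 2 : ℝ≥0∞) < 1 := by
      rw [one_div]; exact ENNReal.one_half_lt_one
    exact tsub_pos_of_lt (h2.trans_lt h4)
  -- the low modes
  set Q : ℝ := ∑ n ∈ S, q n with hQ
  have hQ0 : 0 ≤ Q := Finset.sum_nonneg fun n _ => hq0 n
  set r : ℝ := ρ / (2 * (Q + 1)) with hr
  have hr0 : 0 < r := by positivity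
  have hA : 0 < P (⋂ n ∈ S, g n ⁻¹' closedBall (z n) r) := by
    rw [hind.measure_inter_preimage_eq_mul S fun n _ => measurableSet_closedBall]
    rw [pos_iff_ne_zero, Finset.prod_ne_zero_iff]
    intro n _
    rw [← Measure.map_apply (hm n) measurableSet_closedBall, hg n]
    exact (std_pos' (z n) hr0).ne'
  -- independence
  have hI := indep_iSup_of_disjoint (m := fun n => MeasurableSpace.comap (g n) inferInstance)
    (fun n => (hm n).comap_le) hind (S := (S : Set (Lat d))) (T := (S : Set (Lat d))ᶜ)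
    disjoint_compl_right
  have hAm : MeasurableSet[⨆ n ∈ (S : Set (Lat d)), MeasurableSpace.comap (g n) inferInstance]
      (⋂ n ∈ S, g n ⁻¹' closedBall (z n) r) :=
    @meas_low' d Ω (⨆ n ∈ (S : Set (Lat d)), MeasurableSpace.comap (g n) inferInstance) g S z r
      fun n hn => Measurable.of_comap_le
        (le_iSup₂_of_le (f := fun n (_ : n ∈ (S : Set (Lat d))) =>
          MeasurableSpace.comap (g n) inferInstance) n hn le_rfl)
  have hBm : MeasurableSet[⨆ n ∈ (S : Set (Lat d))ᶜ, MeasurableSpace.comap (g n) inferInstance]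
      {ω | τ ω < ENNReal.ofReal (ρ / 4)} := by
    have h1 := @meas_tail d Ω (⨆ n ∈ (S : Set (Lat d))ᶜ, MeasurableSpace.comap (g n) inferInstance)
      g S (fun n => ENNReal.ofReal (q n)) fun n hn => Measurable.of_comap_le
        (le_iSup₂_of_le (f := fun n (_ : n ∈ (S : Set (Lat d))ᶜ) =>
          MeasurableSpace.comap (g n) inferInstance) n hn le_rfl)
    exact h1 measurableSet_Iio
  have hAB := (Indep_iff _ _ _).1 hI _ _ hAm hBm
  have hpos : 0 < P ((⋂ n ∈ S, g n ⁻¹' closedBall (z n) r) ∩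
      {ω | τ ω < ENNReal.ofReal (ρ / 4)}) := by
    rw [hAB]
    exact ENNReal.mul_pos hA.ne' hB.ne'
  refine hpos.trans_le (measure_mono ?_)
  rintro ω ⟨hω1, hω2⟩
  simp only [mem_iInter, mem_preimage, mem_closedBall, dist_eq_norm] at hω1
  simp only [mem_ofPred_eq] at hω2 ⊢
  have h1 : ∀ n, ENNReal.ofReal (q n) * ‖g n ω - z n‖ₑ ≤
      (if n ∈ S then ENNReal.ofReal (q n * r) else 0) +
      ((if n ∈ S then 0 else ENNReal.ofReal (q n) * ‖g n ω‖ₑ) +
        ENNReal.ofReal (if n ∈ S then 0 else q n * ‖z n‖)) := by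
    intro n
    by_cases hn : n ∈ S
    · simp only [hn, if_true, add_zero, ENNReal.ofReal_zero]
      rw [ENNReal.ofReal_mul (hq0 n), ← ofReal_norm]
      gcongr
      exact hω1 n hn
    · simp only [hn, if_false, zero_add]
      rw [ENNReal.ofReal_mul (hq0 n), ofReal_norm, ← mul_add]
      gcongr
      exact enorm_sub_le
  have hz' : Summable fun n => if n ∈ S then (0 : ℝ) else q n * ‖z n‖ :=
    Summable.of_nonneg_of_le (fun n => by split_ifs <;> simp [hqz0])
      (fun n => by split_ifs <;> simp [hqz0]) hz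
  calc ∑' n, ENNReal.ofReal (q n) * ‖g n ω - z n‖ₑ
      ≤ ∑' n, ((if n ∈ S then ENNReal.ofReal (q n * r) else 0) +
        ((if n ∈ S then 0 else ENNReal.ofReal (q n) * ‖g n ω‖ₑ) +
          ENNReal.ofReal (if n ∈ S then 0 else q n * ‖z n‖))) := ENNReal.tsum_le_tsum h1
    _ = (∑' n, if n ∈ S then ENNReal.ofReal (q n * r) else 0) +
        (τ ω + ∑' n, ENNReal.ofReal (if n ∈ S then 0 else q n * ‖z n‖)) := by
        rw [ENNReal.tsum_add, ENNReal.tsum_add]
    _ = ENNReal.ofReal (Q * r) + (τ ω + ENNReal.ofReal (∑' n, if n ∈ S then 0 else q n * ‖z n‖)) := by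
        congr 1
        · rw [tsum_eq_sum (s := S) (fun n hn => if_neg hn),
            Finset.sum_congr rfl fun n hn => if_pos hn,
            ← ENNReal.ofReal_sum_of_nonneg fun n _ => mul_nonneg (hq0 n) hr0.le, hQ,
            Finset.sum_mul]
        · rw [ENNReal.ofReal_tsum_of_nonneg (fun n => by split_ifs <;> simp [hqz0]) hz']
    _ ≤ ENNReal.ofReal (ρ / 2) + (ENNReal.ofReal (ρ / 4) + ENNReal.ofReal (ρ / 4)) := by
        gcongr
        · rw [hr, mul_div_assoc', div_le_div_iff₀ (by positivity) (by positivity)]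
          nlinarith
        · rw [htail _ hz]
          linarith
    _ = ENNReal.ofReal ρ := by
        rw [← ENNReal.ofReal_add (by positivity) (by positivity),
          ← ENNReal.ofReal_add (by positivity) (by positivity)]
        congr 1
        ring

/-- For `α > s + d` the Gaussian datum enters every open ball of the weighted Wiener algebra
`A_s` with positive probability. -/
theorem datum_ball_pos {Ω : Type*} [MeasurableSpace Ω] (P : Measure Ω) [IsProbabilityMeasure P]
    (g : Lat d → Ω → ℂ) (hgm : ∀ n, Measurable (g n)) (hind : iIndepFun g P)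
    (hg : ∀ n, P.map (g n) = stdComplexGaussian) {α : ℝ} (hα : (s : ℝ) + d < α) (v : WA d s)
    {r : ℝ} (hr : 0 < r) :
    0 < P {ω | ∃ a : WA d s, coef a = datum g α ω ∧ ‖a - v‖ < r} := by
  set w : Lat d → ℝ := fun n => Real.sqrt (1 + sqNorm n) ^ (-α) with hw
  have hw0 : ∀ n, 0 < w n := fun n => by
    have := sqNorm_nonneg n
    exact Real.rpow_pos_of_pos (Real.sqrt_pos.2 (by linarith)) _
  have hq0 : ∀ n : Lat d, 0 ≤ W s n * w n := fun n => mul_nonneg (W_pos n).le (hw0 n).le
  set z : Lat d → ℂ := fun n => coef v n / (w n : ℂ) with hz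
  have hzn : ∀ n, W s n * w n * ‖z n‖ = W s n * ‖coef v n‖ := by
    intro n
    simp only [hz, norm_div, Complex.norm_real, Real.norm_of_nonneg (hw0 n).le]
    have := (hw0 n).ne'
    field_simp
  refine (ball_pos P g hgm hind hg hq0 (summable_q hα) (z := z)
    (by simp only [hzn]; exact v.summable) (half_pos hr)).trans_le (measure_mono ?_)
  intro ω hω
  simp only [mem_ofPred_eq] at hω ⊢
  have hdz : ∀ n, datum g α ω n - coef v n = (w n : ℂ) * (g n ω - z n) := by
    intro n
    have h1 : (w n : ℂ) ≠ 0 := by exact_mod_cast (hw0 n).ne'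
    simp only [datum, hz]
    rw [mul_sub, mul_div_cancel₀ _ h1, mul_comm]
  have hE : ∀ n, ENNReal.ofReal (W s n * w n) * ‖g n ω - z n‖ₑ =
      ENNReal.ofReal (W s n * ‖datum g α ω n - coef v n‖) := by
    intro n
    rw [hdz, norm_mul, Complex.norm_real, Real.norm_of_nonneg (hw0 n).le, ← mul_assoc,
      ENNReal.ofReal_mul (hq0 n), ofReal_norm]
  simp_rw [hE] at hω
  have hnn : ∀ n, 0 ≤ W s n * ‖datum g α ω n - coef v n‖ := fun n =>
    mul_nonneg (W_pos n).le (norm_nonneg _)
  have hsum : Summable fun n => W s n * ‖datum g α ω n - coef v n‖ := by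
    have h1 : ∑' n, ENNReal.ofReal (W s n * ‖datum g α ω n - coef v n‖) ≠ ∞ :=
      (hω.trans_lt ENNReal.ofReal_lt_top).ne
    exact (ENNReal.summable_toReal h1).congr fun n => ENNReal.toReal_ofReal (hnn n)
  rw [← ENNReal.ofReal_tsum_of_nonneg hnn hsum, ENNReal.ofReal_le_ofReal_iff (half_pos hr).le] at hω
  set b : WA d s := mk (fun n => datum g α ω n - coef v n) hsum with hb
  have hbc : ∀ n, coef b n = datum g α ω n - coef v n := coef_mk _ hsum
  refine ⟨v + b, ?_, ?_⟩
  · funext n
    rw [coef_add, hbc]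
    ring
  · rw [add_sub_cancel_left, norm_eq]
    simp only [hbc]
    linarith

end Vale.Agent.P139.BU
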