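import Vale.Agent.P139.BU.Core2
import Vale.Agent.P139.H889.Fin5

/-! # P139: `StableProfile d` from radial profiles that are radially mode stable -/

open scoped ComplexConjugate ContDiff
open Complex

namespace Vale.Agent.P139.BU

theorem RadAdm.mono {K K' : ℕ} (h : K ≤ K') {F : ℝ → ℂ} (hF : RadAdm K' F) : RadAdm K F where
  smooth := hF.smooth.of_le (by exact_mod_cast h)
  bdd0 := hF.bdd0
  bddinf := fun k hk => hF.bddinf k (hk.trans h)

theorem RadStable.mono {d m K K' : ℕ} {w : ℝ} {q : ℝ → ℂ} (h : K ≤ K')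
    (hR : RadStable d m K w q) : RadStable d m K' w q where
  eig := fun l lam hl F G hF hG h1 h2 => hR.eig l lam hl F G (hF.mono h) (hG.mono h) h1 h2
  jordan := fun l lam hl F G F0 G0 hF hG hm h1 h2 =>
    hR.jordan l lam hl F G F0 G0 (hF.mono h) (hG.mono h) hm h1 h2

/-- (X1)+(X2)+(X3) ⟹ `StableProfile d`. -/
theorem stableProfile_of_radial {d : ℕ} (hd : 2 ≤ d)
    (h : ∃ m₀ : ℕ, ∀ m : ℕ, m₀ ≤ m → ∃ (K : ℕ) (w : ℝ) (q : ℝ → ℂ),
      IsProfile d m w (fun x : E d => q ‖x‖) ∧ RadStable d m K w q) : StableProfile d := by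
  obtain ⟨m₀, H⟩ := h
  have : NeZero d := ⟨by omega⟩
  refine ⟨m₀, fun m hm => ?_⟩
  obtain ⟨K, w, q, hP, hR⟩ := H m hm
  exact ⟨max K 2, w, fun x => q ‖x‖, hP,
    Vale.Agent.P139.H889.modeStable_of_radStable hd (le_max_right K 2) hP (fun _ => rfl)
      (hR.mono (le_max_left K 2))⟩

end Vale.Agent.P139.BU
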