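import Vale.Agent.P139.BU.Core
import Vale.Agent.P139.KU.Basic

/-!
# P139 / BU : the m-uniform profile package `UP` (helper747)

`UP d B m0 w R q` : a family of profiles `Q_m x = q m ‖x‖`, `m ≥ m0`, with frequencies `w m` and
hitting radii `R m`, together with all the bounds that are uniform in `m`.
Potential: `P_m r = ‖q m r‖ ^ (2 m)`; prime in the comments below is the derivative in `r`.
-/

open scoped ComplexConjugate ContDiff Topology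
open Complex Filter Set

namespace Vale.Agent.P139.BU

/-- Linear limit equation beyond the hitting radius (`a = 0`, no potential), as a first order
system for `(Z, Z1)`. -/
structure LinInf (d : ℕ) (w : ℝ) (Z Z1 : ℝ → ℂ) (s : Set ℝ) : Prop where
  h1 : ∀ r ∈ s, HasDerivAt Z (Z1 r) r
  h2 : ∀ r ∈ s, HasDerivAt Z1
    (-((((d : ℝ) - 1) / r : ℝ) + I * (r / 2 : ℝ)) * Z1 r - (w : ℂ) * Z r) r

/-- The m-uniform profile package. -/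
structure UP (d : ℕ) (B : Set (ℝ × ℝ)) (m0 : ℕ) (w R : ℕ → ℝ) (q : ℕ → ℝ → ℂ) : Prop where
  /-- `m0` is positive. -/
  m0_pos : 1 ≤ m0
  /-- Every member is a profile. -/
  prof : ∀ m, m0 ≤ m → IsProfile d m (w m) (fun x : E d => q m ‖x‖)
  /-- `q m` is a smooth function of `r^2`. -/
  rad : ∀ m, m0 ≤ m → ∃ h : ℝ → ℂ, ContDiff ℝ ∞ h ∧ ∀ r, q m r = h (r ^ 2)
  /-- The radial profile equation. -/
  ode : ∀ m, m0 ≤ m → ∀ r : ℝ, 0 < r →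
    deriv (deriv (q m)) r + ((((d : ℝ) - 1) / r : ℝ) + I * (r / 2 : ℝ)) * deriv (q m) r
      + ((w m : ℂ) + I * (aa m : ℂ)) * q m r = W1 m (q m r) * q m r
  ne : ∀ m, m0 ≤ m → ∀ r, q m r ≠ 0
  /-- Normalisation at the origin. -/
  q0 : ∀ m, m0 ≤ m → (q m 0).im = 0 ∧ 0 < (q m 0).re
  /-- The parameters lie in the certificate box. -/
  mem : ∀ m, m0 ≤ m → (w m, R m) ∈ B
  wpos : ∀ m, m0 ≤ m → 0 < w m
  Rpos : ∀ m, m0 ≤ m → 0 < R m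
  wbd : ∃ w1 > 0, ∀ m, m0 ≤ m → w1 ≤ w m ∧ w m ≤ 1
  Rbd : ∃ R1 > 0, ∃ R2, ∀ m, m0 ≤ m → R1 ≤ R m ∧ R m ≤ R2
  /-- The parameters converge to the zero set of the limit matching function. -/
  zero : Tendsto (fun m : ℕ => KU.J (1 - I * (w m : ℂ)) ((d : ℂ) / 2 - 1 + I * (w m : ℂ))
    (((R m) ^ 2 / 4 : ℝ) : ℂ)) atTop (𝓝 0)
  /-- Uniform bounds on bounded intervals. -/
  bd : ∀ b : ℝ, 0 < b → ∃ c > 0, ∃ C : ℝ, ∃ m1 : ℕ, ∀ m, m1 ≤ m → ∀ r ∈ Ioc (0 : ℝ) b,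
    c ≤ ‖q m r‖ ∧ ‖q m r‖ ≤ C ∧ ‖deriv (q m) r‖ ≤ C * r ∧
    ‖deriv (deriv (q m)) r‖ ≤ C ∧ ‖q m r‖ ^ (2 * m) ≤ C
  /-- The hitting radius. -/
  hit : ∀ m, m0 ≤ m → ‖q m (R m)‖ ^ (2 * m) = w m / 2
  above : ∀ m, m0 ≤ m → ∀ r ∈ Icc (0 : ℝ) (R m), w m / 2 ≤ ‖q m r‖ ^ (2 * m)
  /-- Core estimates on `[0, R m]`. -/
  core : ∃ C > 0, ∃ m1 : ℕ, ∀ m, m1 ≤ m → ∀ r ∈ Icc (0 : ℝ) (R m),
    ‖q m r‖ ^ (2 * m) ≤ w m + C / m ∧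
    w m * (1 - C / m - 2 * Real.exp (-(Real.sqrt m / C) * (R m - r))) ≤ ‖q m r‖ ^ (2 * m) ∧
    ‖deriv (q m) r‖ ≤ C / Real.sqrt m ∧
    |(deriv (q m) r / q m r).im| ≤ C * r / m
  /-- Almost monotonicity of the modulus up to `R m + η0` (hence `P' ≤ (C/m) P` there). -/
  mono : ∃ η0 > 0, ∃ C : ℝ, ∃ m1 : ℕ, ∀ m, m1 ≤ m → ∀ r ∈ Ioc (0 : ℝ) (R m + η0),
    (deriv (q m) r / q m r).re ≤ C / (m : ℝ) ^ 2
  /-- The layer after `R m`. -/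
  layer : ∃ η0 > 0, ∃ c > 0, ∃ m1 : ℕ, ∀ m, m1 ≤ m → ∀ r ∈ Ioc (R m) (R m + η0),
    ‖q m r‖ ^ (2 * m) ≤ (w m / 2) * Real.exp (-(c * m * (r - R m) ^ 2)) ∧
    (conj (q m r) * deriv (q m) r).re < 0
  /-- `C^1`-closeness to the limit equation beyond `R m`. -/
  close : ∀ b : ℝ, ∃ C : ℝ, ∃ m1 : ℕ, ∀ m, m1 ≤ m → ∀ Z Z1 : ℝ → ℂ,
    ContinuousOn Z (Icc (R m) b) → ContinuousOn Z1 (Icc (R m) b) →
    LinInf d (w m) Z Z1 (Ioo (R m) b) → Z (R m) = 1 → Z1 (R m) = 0 →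
    ∃ z : ℂ, ‖z‖ = 1 ∧ ∀ r ∈ Icc (R m) b,
      ‖q m r - z * Z r‖ ≤ C / Real.sqrt m ∧ ‖deriv (q m) r - z * Z1 r‖ ≤ C / Real.sqrt m
  /-- `|q| < 1` uniformly beyond `R m + η`, with the decay rate at infinity. -/
  out : ∀ η : ℝ, 0 < η → ∃ θ : ℝ, 0 < θ ∧ θ < 1 ∧ ∃ m1 : ℕ, ∀ m, m1 ≤ m →
    ∀ r : ℝ, R m + η ≤ r → ‖q m r‖ ≤ θ * (1 + r) ^ (-(2 * aa m))
  /-- Symbol bounds with constants polynomial in `m`. -/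
  symb : ∀ N : ℕ, ∃ C : ℝ, ∃ K : ℕ, ∀ m, m0 ≤ m → ∀ k ≤ N, ∀ x : E d,
    ‖iteratedFDeriv ℝ k (fun x : E d => q m ‖x‖) x‖
      ≤ C * (m : ℝ) ^ K * (1 + ‖x‖) ^ (-(2 * aa m) - (k : ℝ))

end Vale.Agent.P139.BU
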