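import Vale.Agent.P139.BU.PFinal
import Vale.Agent.P139.BU.SP
import Vale.Agent.P139.H700.Asm2
import Vale.Agent.P139.H607.S1J
import Vale.Agent.P139.H312.I3fin
import Vale.Agent.P139.H311.S2Fin
import Vale.Agent.P139.H901.Final

/-! # P139: for all large `m` there is a mode-stable self-similar profile in dimension `13` -/

namespace Vale.Agent.P139.BU

/-- **(X1)+(X2)+(X3)**. -/
theorem stableProfile13 : StableProfile 13 := by
  obtain ⟨m0, w, R, q, hU⟩ := exists_UP
  have hJ : H901.ExtJ 13 (max (H901.KX 13) 36) w R q :=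
    H901.ext_J hU (by norm_num) (le_max_left _ _)
  have hS1 := H607.s1_final_J hU (by norm_num)
    (le_trans (by norm_num) (le_max_right (H901.KX 13) 36)) hJ
  obtain ⟨m1, H⟩ := H700.radStable_of_S1_ExtJ (by norm_num) hU isClosed_boxP
    (fun w R hB _ _ hQ => H311.certGood_of_evGood (H312.I3 w R (mem_boxP.1 hB) hQ))
    (le_trans (by norm_num) (le_max_right (H901.KX 13) 36)) hS1 hJ
  refine stableProfile_of_radial (by norm_num) ⟨max m0 m1, fun m hm => ?_⟩
  obtain ⟨K', hR⟩ := H m (le_trans (le_max_right _ _) hm)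
  exact ⟨K', w m, q m, hU.prof m (le_trans (le_max_left _ _) hm), hR⟩

end Vale.Agent.P139.BU
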