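import Vale.Agent.P139.BU.Persist
import Vale.Agent.P139.BU.Core2

/-! # P139, block (iv), part 5: the reduction in the form (X5) of the interface -/

open Set Metric Filter Topology MeasureTheory ProbabilityTheory
open scoped NNReal ENNReal ComplexConjugate

namespace Vale.Agent.P139.BU

open Vale.Agent.P139.A Vale.Agent.P139.A.WA Vale.Agent.P139.H836 Vale.Agent.P139.H203

variable {d s : ℕ}

/-- No solution from a ball lives up to `T₀`: the form `BallBlowup`. -/
theorem NoLongBall.ballBlowup {m : ℕ} {T₀ : ℝ} (h : NoLongBall d m s T₀) : BallBlowup d m := by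
  obtain ⟨v, r, hr, H⟩ := h
  refine ⟨s, coef v, r, T₀, hr, v.summable, fun a hs har k hk => ?_⟩
  have ha : Summable fun n => W s n * ‖a n - coef v n‖ := hs
  set b : WA d s := mk (fun n => a n - coef v n) ha with hb
  have hbc : ∀ n, coef b n = a n - coef v n := coef_mk _ ha
  have hab : coef (v + b) = a := by
    funext n
    rw [coef_add, hbc]
    ring
  have hn : ‖(v + b) - v‖ < r := by
    rw [add_sub_cancel_left, norm_eq]
    simp only [hbc]
    exact har
  unfold lifespan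
  refine iSup₂_le fun T hT => ?_
  obtain ⟨u, hu, hu0⟩ := hT
  obtain ⟨w, hw0, hw, -⟩ := persist_sobolev hk T.2 hu (v + b) (hu0.trans hab.symm)
  have h1 : (T : ℝ) < T₀ := by
    by_contra hcon
    rw [not_lt] at hcon
    exact H w (by rw [hw0]; exact hn) (curve_mono hcon hw)
  rw [← ENNReal.ofReal_coe_nnreal]
  exact ENNReal.ofReal_le_ofReal h1.le

/-- `BallBlowup` gives finite-time blow-up before a deterministic time, with positive probability,
for every large `α`. -/
theorem BallBlowup.prob {m : ℕ} (h : BallBlowup d m) : ∃ α₁ T₁ : ℝ, ∀ α : ℝ, α₁ < α →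
    ∀ {Ω : Type*} [MeasurableSpace Ω] (P : Measure Ω) [IsProbabilityMeasure P]
      (g : Lat d → Ω → ℂ), (∀ n, Measurable (g n)) → iIndepFun g P →
      (∀ n, P.map (g n) = stdComplexGaussian) →
      0 < P {ω | ∀ k : ℕ, d < 2 * k →
        lifespan d (2 * m + 1) k (datum g α ω) ≤ ENNReal.ofReal T₁} := by
  obtain ⟨s, v0, r, T₁, hr, hv, H⟩ := h
  refine ⟨s + d, T₁, fun α hα Ω _ P _ g hgm hind hg => ?_⟩
  have hv' : Summable fun n => W s n * ‖v0 n‖ := hv
  have hc : ∀ n, coef (mk v0 hv' : WA d s) n = v0 n := coef_mk _ hv'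
  refine (datum_ball_pos P g hgm hind hg hα (mk v0 hv') hr).trans_le (measure_mono ?_)
  rintro ω ⟨a, ha, har⟩ k hk
  have h1 : ∀ n, coef (a - mk v0 hv') n = datum g α ω n - v0 n := fun n => by
    rw [coef_sub, hc, ha]
  have h2 := (a - mk v0 hv').summable
  have h3 := har
  rw [norm_eq] at h3
  simp only [h1] at h2 h3
  exact H _ h2 h3 k hk

theorem BallBlowup.posProb {m : ℕ} (h : BallBlowup d m) : PosProb d m := by
  obtain ⟨α₁, T₁, H⟩ := h.prob
  refine ⟨α₁, fun α hα Ω _ P _ g hgm hind hg => ?_⟩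
  refine (H α hα P g hgm hind hg).trans_le (measure_mono fun ω hω k hk => ?_)
  exact (hω k hk).trans_lt ENNReal.ofReal_lt_top

/-- (X5) -/
theorem BallBlowup.not_Q1 {m : ℕ} (hm : 1 ≤ m) (hsc : 1 < (d : ℝ) / 2 - 1 / m)
    (h : BallBlowup d m) : ¬ Q1 := h.posProb.not_Q1 hm hsc

/-- The final assembly. -/
theorem not_Q1_of_blocks (hd : 5 ≤ d) (h1 : StableProfile d)
    (h2 : ∀ m : ℕ, 1 ≤ m → ProfileBlowup d m) : ¬ Q1 := by
  obtain ⟨m₀, H⟩ := h1
  obtain ⟨K, w, Q, hP, hS⟩ := H (max m₀ 1 + 2) (by omega)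
  refine BallBlowup.not_Q1 (d := d) (m := max m₀ 1 + 2) (by omega) ?_
    (h2 _ (by omega) K w Q hP hS)
  have h3 : (3 : ℝ) ≤ ((max m₀ 1 + 2 : ℕ) : ℝ) := by
    have : 3 ≤ max m₀ 1 + 2 := by omega
    exact_mod_cast this
  have h4 : (5 : ℝ) ≤ d := by exact_mod_cast hd
  have h5 : (1 : ℝ) / ((max m₀ 1 + 2 : ℕ) : ℝ) ≤ 1 / 3 := by
    apply one_div_le_one_div_of_le (by norm_num) h3
  linarith

end Vale.Agent.P139.BU
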