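import Vale.Agent.P139.BU.TFinal

/-! # P139, block (iv), part 6: the lifespan of the random datum is well defined: it is positive
and does not depend on the Sobolev index; the sharpened form of the conclusion -/

open Set Metric Filter Topology MeasureTheory ProbabilityTheory
open scoped NNReal ENNReal ComplexConjugate

namespace Vale.Agent.P139.BU

open Vale.Agent.P139.A Vale.Agent.P139.A.WA Vale.Agent.P139.H836 Vale.Agent.P139.H203

variable {d k s : ℕ}

/-- Local existence in the weighted Wiener algebra. -/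
theorem exists_curve (m : ℕ) (a : WA d s) :
    ∃ T : ℝ, 0 < T ∧ ∃ u : ℝ → WA d s, u 0 = a ∧ Curve m T u := by
  set Mo := wienerModel d s with hMo
  set ρ : ℝ := ‖a‖ + 1 with hρ
  have hρ0 : 0 < ρ := by positivity
  set B : ℝ := (2 * ρ) ^ (2 * m + 1) with hB
  have hB0 : 0 < B := by positivity
  set T : ℝ := 1 / B with hT
  have hT0 : 0 < T := by positivity
  obtain ⟨v, hv0, hv⟩ := Mo.exists_flow m hρ0 hT0.le a
  have hvc : ContinuousOn v (Icc 0 T) := HasDerivWithinAt.continuousOn hv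
  have hb : ∀ t ∈ Icc 0 T, ‖v t‖ ≤ ρ := by
    intro t ht
    have h1 := (convex_Icc (0 : ℝ) T).norm_image_sub_le_of_norm_hasDerivWithin_le
      (f := v) (C := B) (fun r hr => hv r hr) (fun r hr => ?_) ⟨le_rfl, hT0.le⟩ ht
    · rw [sub_zero, Real.norm_of_nonneg ht.1, hv0] at h1
      have h2 : B * t ≤ 1 := by
        calc B * t ≤ B * T := by gcongr; exact ht.2
          _ = 1 := by rw [hT]; field_simp
      have h3 : ‖v t‖ ≤ ‖v t - a‖ + ‖a‖ := by
        simpa using norm_add_le (v t - a) a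
      linarith
    · refine (cutField_norm_le (M := ⟨B, hB0.le⟩) hρ0 (fun x hx => ?_) (v r))
      refine (Mo.field_norm_le m r x).trans ?_
      have hx' : ‖x‖ ≤ 2 * ρ := by simpa only [mem_closedBall, dist_zero_right] using hx
      show ‖x‖ ^ (2 * m + 1) ≤ (2 * ρ) ^ (2 * m + 1)
      gcongr
  refine ⟨T, hT0, fun r => Ug r (v r), ?_, ⟨Mo.continuousOn_U hvc, fun r hr n => ?_⟩⟩
  · ext n
    simp only [hv0, coef_Ug]
    simp
  · have h2 := Mo.coeff_deriv hρ0 (hv r hr) (hb r hr) n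
    refine h2.congr_deriv ?_
    rw [nl_eq_F]
    show -Complex.I * ((sqNorm n : ℂ) * coef (Mo.U r (v r)) n + coef (F m (Mo.U r (v r))) n) =
      -Complex.I * (sqNorm n * coef (Mo.U r (v r)) n) - Complex.I * coef (F m (Mo.U r (v r))) n
    ring

/-- The lifespan of a datum in `A_s(T^d)` is positive in every `H^k`, `k ≤ s`. -/
theorem lifespan_pos (m : ℕ) (hks : k ≤ s) (a : WA d s) :
    0 < lifespan d (2 * m + 1) k (coef a) := by
  obtain ⟨T, hT, u, hu0, hu⟩ := exists_curve m a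
  refine lt_of_lt_of_le (ENNReal.ofReal_pos.2 hT)
    (lifespan_ge hT.le ⟨_, ?_, isSolution_le hks (isSolution_of_curve hu)⟩)
  simp only [hu0]

theorem lifespan_mono {p j : ℕ} (hj : j ≤ k) (a : Lat d → ℂ) :
    lifespan d p k a ≤ lifespan d p j a := by
  unfold lifespan
  refine iSup₂_le fun T hT => ?_
  obtain ⟨u, hu, hu0⟩ := hT
  exact le_iSup₂_of_le T ⟨u, isSolution_le hj hu, hu0⟩ le_rfl

/-- The lifespan of a datum in `A_s(T^d)` is the same in every `H^k`, `d/2 < k ≤ s`. -/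
theorem lifespan_indep (m : ℕ) {j : ℕ} (hj : d < 2 * j) (hks : k ≤ s) (a : WA d s) :
    lifespan d (2 * m + 1) j (coef a) ≤ lifespan d (2 * m + 1) k (coef a) := by
  refine le_trans ?_ (lifespan_mono (p := 2 * m + 1) hks (coef a))
  conv_lhs => unfold lifespan
  refine iSup₂_le fun T hT => ?_
  obtain ⟨u, hu, hu0⟩ := hT
  obtain ⟨v, hv0, hv, -⟩ := persist_sobolev hj T.2 hu a hu0
  unfold lifespan
  exact le_iSup₂_of_le T ⟨_, isSolution_of_curve hv, by simp only [hv0]⟩ le_rfl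

/-- Almost surely the datum belongs to `A_s(T^d)`, `s < α - d`. -/
theorem ae_datum {Ω : Type*} [MeasurableSpace Ω] {P : Measure Ω} {g : Lat d → Ω → ℂ}
    (hm : ∀ n, Measurable (g n)) (hg : ∀ n, P.map (g n) = stdComplexGaussian) {α : ℝ}
    (hα : (s : ℝ) + d < α) : ∀ᵐ ω ∂P, ∃ a : WA d s, coef a = datum g α ω := by
  set q : Lat d → ℝ := fun n => W s n * Real.sqrt (1 + sqNorm n) ^ (-α) with hq
  have hq0 : ∀ n, 0 ≤ q n := fun n =>
    mul_nonneg (W_pos n).le (Real.rpow_nonneg (Real.sqrt_nonneg _) _)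
  have hqs : Summable q := summable_q hα
  have hmeas : ∀ n, Measurable fun ω => ENNReal.ofReal (q n) * ‖g n ω‖ₑ := fun n =>
    (hm n).enorm.const_mul _
  have h1 : ∫⁻ ω, ∑' n, ENNReal.ofReal (q n) * ‖g n ω‖ₑ ∂P ≠ ∞ := by
    rw [lintegral_tsum fun n => (hmeas n).aemeasurable]
    have h2 : ∀ n, ∫⁻ ω, ENNReal.ofReal (q n) * ‖g n ω‖ₑ ∂P =
        ENNReal.ofReal (q n) * (∫⁻ z, ‖z‖ₑ ∂stdComplexGaussian) := by
      intro n
      rw [lintegral_const_mul _ (hm n).enorm, ← hg n, lintegral_map (by fun_prop) (hm n)]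
    simp_rw [h2]
    rw [ENNReal.tsum_mul_right]
    exact ENNReal.mul_ne_top hqs.tsum_ofReal_ne_top std_moment.ne
  have h3 := ae_lt_top (Measurable.tsum hmeas) h1
  filter_upwards [h3] with ω hω
  have hterm : ∀ n, W s n * ‖datum g α ω n‖ = q n * ‖g n ω‖ := by
    intro n
    unfold datum
    rw [norm_mul, Complex.norm_real, Real.norm_of_nonneg (Real.rpow_nonneg (Real.sqrt_nonneg _) _)]
    simp only [hq]
    ring
  have h4 : ∑' n, ENNReal.ofReal (W s n * ‖datum g α ω n‖) ≠ ∞ := by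
    refine ne_of_eq_of_ne (tsum_congr fun n => ?_) hω.ne
    rw [hterm, ENNReal.ofReal_mul (hq0 n), ofReal_norm]
  have hsum : Summable fun n => W s n * ‖datum g α ω n‖ :=
    (ENNReal.summable_toReal h4).congr fun n =>
      ENNReal.toReal_ofReal (mul_nonneg (W_pos n).le (norm_nonneg _))
  exact ⟨mk (datum g α ω) hsum, funext fun n => coef_mk _ hsum n⟩

/-- Almost surely the lifespan is positive and does not depend on the Sobolev index. -/
theorem ae_lifespan {Ω : Type*} [MeasurableSpace Ω] {P : Measure Ω} {g : Lat d → Ω → ℂ}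
    (hm : ∀ n, Measurable (g n)) (hg : ∀ n, P.map (g n) = stdComplexGaussian) {α : ℝ} (m : ℕ) :
    ∀ᵐ ω ∂P, ∀ k : ℕ, d < 2 * k → (k : ℝ) + d < α →
      0 < lifespan d (2 * m + 1) k (datum g α ω) ∧
      ∀ j : ℕ, d < 2 * j → lifespan d (2 * m + 1) j (datum g α ω) ≤
        lifespan d (2 * m + 1) k (datum g α ω) := by
  rw [ae_all_iff]
  intro k
  by_cases hk : (k : ℝ) + d < α
  · filter_upwards [ae_datum (s := k) hm hg hk] with ω hω _ _
    obtain ⟨a, ha⟩ := hω
    rw [← ha]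
    exact ⟨lifespan_pos m le_rfl a, fun j hj => lifespan_indep m hj le_rfl a⟩
  · exact Eventually.of_forall fun ω _ h => absurd h hk

/-- The sharpened form: with positive probability there is a time `0 < T ≤ T₁` which is the
lifespan in every `H^k`, `d/2 < k < α - d`, and bounds the lifespan in every `H^k`, `k > d/2`. -/
theorem BallBlowup.prob_time {m : ℕ} (h : BallBlowup d m) : ∃ α₁ T₁ : ℝ, ∀ α : ℝ, α₁ < α →
    ∀ {Ω : Type*} [MeasurableSpace Ω] (P : Measure Ω) [IsProbabilityMeasure P]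
      (g : Lat d → Ω → ℂ), (∀ n, Measurable (g n)) → iIndepFun g P →
      (∀ n, P.map (g n) = stdComplexGaussian) →
      0 < P {ω | ∃ T : ℝ, 0 < T ∧ T ≤ T₁ ∧
        (∀ k : ℕ, d < 2 * k → (k : ℝ) + d < α →
          lifespan d (2 * m + 1) k (datum g α ω) = ENNReal.ofReal T) ∧
        ∀ k : ℕ, d < 2 * k → lifespan d (2 * m + 1) k (datum g α ω) ≤ ENNReal.ofReal T} := by
  obtain ⟨α₁, T₁, H⟩ := h.prob
  refine ⟨max α₁ (2 * d + 1), T₁, fun α hα Ω _ P _ g hgm hind hg => ?_⟩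
  have hα1 : α₁ < α := (le_max_left _ _).trans_lt hα
  have hα2 : 2 * (d : ℝ) + 1 < α := (le_max_right _ _).trans_lt hα
  have hk0 : (((d + 1 : ℕ) : ℝ)) + d < α := by push_cast; linarith
  have hd0 : d < 2 * (d + 1) := by omega
  have h1 := H α hα1 P g hgm hind hg
  have h2 := ae_lifespan (P := P) hgm hg (α := α) m
  set B : Set Ω := {ω | ∀ k : ℕ, d < 2 * k → (k : ℝ) + d < α →
        0 < lifespan d (2 * m + 1) k (datum g α ω) ∧
        ∀ j : ℕ, d < 2 * j → lifespan d (2 * m + 1) j (datum g α ω) ≤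
          lifespan d (2 * m + 1) k (datum g α ω)} with hB
  have hB0 : P Bᶜ = 0 := mem_ae_iff.1 h2
  have h3 : 0 < P ({ω | ∀ k : ℕ, d < 2 * k →
        lifespan d (2 * m + 1) k (datum g α ω) ≤ ENNReal.ofReal T₁} ∩ B) := by
    rw [measure_inter_conull hB0]
    exact h1
  refine h3.trans_le (measure_mono ?_)
  rintro ω ⟨hω1, hω2⟩
  simp only [mem_ofPred_eq] at hω1 hω2 ⊢
  set L : ℝ≥0∞ := lifespan d (2 * m + 1) (d + 1) (datum g α ω) with hL
  have hL0 : 0 < L := (hω2 (d + 1) hd0 hk0).1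
  have hL1 : L ≤ ENNReal.ofReal T₁ := hω1 (d + 1) hd0
  have hLt : L ≠ ∞ := (hL1.trans_lt ENNReal.ofReal_lt_top).ne
  have hT0 : 0 < L.toReal := ENNReal.toReal_pos hL0.ne' hLt
  have hall : ∀ k : ℕ, d < 2 * k → lifespan d (2 * m + 1) k (datum g α ω) ≤ L := fun k hk =>
    (hω2 (d + 1) hd0 hk0).2 k hk
  refine ⟨L.toReal, hT0, ?_, fun k hk hkα => ?_, fun k hk => ?_⟩
  · have h4 : 0 < T₁ := by
      by_contra hcon
      rw [not_lt] at hcon
      rw [ENNReal.ofReal_of_nonpos hcon, nonpos_iff_eq_zero] at hL1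
      exact hL0.ne' hL1
    exact ENNReal.toReal_le_of_le_ofReal h4.le hL1
  · rw [ENNReal.ofReal_toReal hLt]
    exact le_antisymm (hall k hk) ((hω2 k hk hkα).2 (d + 1) hd0)
  · rw [ENNReal.ofReal_toReal hLt]
    exact hall k hk

end Vale.Agent.P139.BU
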