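import Vale.Agent.P139.BU.Prob
import Mathlib.Probability.HasLawExists

/-! # P139, block (iv), part 3: the formal target.  An open ball of blow-up data in a weighted
Wiener algebra `A_s(T^d)` gives a negative answer to Q1. -/

open Set Metric Filter Topology MeasureTheory ProbabilityTheory
open scoped NNReal ENNReal ComplexConjugate

namespace Vale.Agent.P139.BU

open Vale.Agent.P139.A Vale.Agent.P139.A.WA Vale.Agent.P139.H836 Vale.Agent.P139.H203

variable {d k s : ℕ}

/-- The statement of Q1 of P139: for every energy-supercritical pair `(d,p)` with `p ≥ 3` odd there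
is `α₀` such that for every `α > α₀` the solution with the Gaussian datum is global almost surely
(the lifespan is read in `H^k` for every integer `d/2 < k < α - d/2`). -/
def Q1 : Prop :=
  ∀ d p : ℕ, Odd p → 3 ≤ p → 1 < (d : ℝ) / 2 - 2 / ((p : ℝ) - 1) →
    ∃ α₀ : ℝ, ∀ α : ℝ, α₀ < α →
      ∀ (Ω : Type) [MeasurableSpace Ω] (P : Measure Ω) [IsProbabilityMeasure P]
        (g : Lat d → Ω → ℂ), (∀ n, Measurable (g n)) → iIndepFun g P →
        (∀ n, P.map (g n) = stdComplexGaussian) →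
        ∀ k : ℕ, d < 2 * k → (k : ℝ) < α - d / 2 →
          ∀ᵐ ω ∂P, lifespan d p k (datum g α ω) = ⊤

/-- There is an open ball of `A_s(T^d)` all of whose elements are data of solutions (in some
weighted Wiener algebra `A_{s'}(T^d)`) that blow up in finite time. -/
def BlowBall (d m s : ℕ) : Prop :=
  ∃ v : WA d s, ∃ r : ℝ, 0 < r ∧ ∀ a : WA d s, ‖a - v‖ < r →
    ∃ (s' : ℕ) (T : ℝ) (u : ℝ → WA d s'), coef (u 0) = coef a ∧ Blow m T u

/-- The version in which the solution is followed in `A_s(T^d)` and blows up before `T₀`. -/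
def BlowBallS (d m s : ℕ) (T₀ : ℝ) : Prop :=
  ∃ v : WA d s, ∃ r : ℝ, 0 < r ∧ ∀ a : WA d s, ‖a - v‖ < r →
    ∃ (T : ℝ) (u : ℝ → WA d s), T ≤ T₀ ∧ u 0 = a ∧ Blow m T u

theorem BlowBallS.weak {m : ℕ} {T₀ : ℝ} (h : BlowBallS d m s T₀) : BlowBall d m s := by
  obtain ⟨v, r, hr, H⟩ := h
  refine ⟨v, r, hr, fun a ha => ?_⟩
  obtain ⟨T, u, -, hu0, hu⟩ := H a ha
  exact ⟨s, T, u, by rw [hu0], hu⟩

/-- Finite-time blow-up has positive probability for every `α > s + d`. -/
theorem prob_blowup {m : ℕ} (h : BlowBall d m s) {Ω : Type*} [MeasurableSpace Ω] (P : Measure Ω)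
    [IsProbabilityMeasure P] (g : Lat d → Ω → ℂ) (hgm : ∀ n, Measurable (g n))
    (hind : iIndepFun g P) (hg : ∀ n, P.map (g n) = stdComplexGaussian) {α : ℝ}
    (hα : (s : ℝ) + d < α) :
    0 < P {ω | ∀ k : ℕ, d < 2 * k → lifespan d (2 * m + 1) k (datum g α ω) < ∞} := by
  obtain ⟨v, r, hr, H⟩ := h
  refine (datum_ball_pos P g hgm hind hg hα v hr).trans_le (measure_mono ?_)
  rintro ω ⟨a, ha, har⟩ k hk
  obtain ⟨s', T, u, hu0, hu⟩ := H a har
  rw [← ha, ← hu0]
  exact (hu.lifespan_le hk).trans_lt ENNReal.ofReal_lt_top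

/-- With the solutions followed in `A_s(T^d)`: with positive probability the lifespans in `H^k`,
`d/2 < k ≤ s`, are all equal to one finite time `0 < T ≤ T₀`, and those in `H^k`, `k > d/2`, are
at most `T`. -/
theorem prob_blowupS {m : ℕ} {T₀ : ℝ} (h : BlowBallS d m s T₀) {Ω : Type*} [MeasurableSpace Ω]
    (P : Measure Ω) [IsProbabilityMeasure P] (g : Lat d → Ω → ℂ) (hgm : ∀ n, Measurable (g n))
    (hind : iIndepFun g P) (hg : ∀ n, P.map (g n) = stdComplexGaussian) {α : ℝ}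
    (hα : (s : ℝ) + d < α) :
    0 < P {ω | ∃ T : ℝ, 0 < T ∧ T ≤ T₀ ∧
      (∀ k : ℕ, d < 2 * k → lifespan d (2 * m + 1) k (datum g α ω) ≤ ENNReal.ofReal T) ∧
      ∀ k : ℕ, d < 2 * k → k ≤ s → lifespan d (2 * m + 1) k (datum g α ω) = ENNReal.ofReal T} := by
  obtain ⟨v, r, hr, H⟩ := h
  refine (datum_ball_pos P g hgm hind hg hα v hr).trans_le (measure_mono ?_)
  rintro ω ⟨a, ha, har⟩
  obtain ⟨T, u, hT, hu0, hu⟩ := H a har
  refine ⟨T, hu.pos, hT, fun k hk => ?_, fun k hk hks => ?_⟩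
  · rw [← ha, ← hu0]
    exact hu.lifespan_le hk
  · rw [← ha, ← hu0]
    exact hu.lifespan_eq hk hks

instance : IsProbabilityMeasure stdComplexGaussian := by
  unfold stdComplexGaussian
  exact Measure.isProbabilityMeasure_map measurable_mkC.aemeasurable

/-- There is a family of independent standard complex Gaussians indexed by `ℤ^d`. -/
theorem exists_gaussians (d : ℕ) : ∃ (Ω : Type) (_ : MeasurableSpace Ω) (P : Measure Ω)
    (g : Lat d → Ω → ℂ), IsProbabilityMeasure P ∧ (∀ n, Measurable (g n)) ∧ iIndepFun g P ∧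
      ∀ n, P.map (g n) = stdComplexGaussian := by
  obtain ⟨Ω, mΩ, P, g, h1, h2, h3, h4⟩ := exists_iid (Lat d) stdComplexGaussian
  exact ⟨Ω, mΩ, P, g, h4, h1, h3, fun n => (h2 n).map_eq⟩

/-- The probabilistic form of the negative answer for one pair `(d, 2m+1)`: for every large `α`
the lifespan is finite with positive probability. -/
def PosProb (d m : ℕ) : Prop :=
  ∃ α₁ : ℝ, ∀ α : ℝ, α₁ < α →
    ∀ (Ω : Type) [MeasurableSpace Ω] (P : Measure Ω) [IsProbabilityMeasure P]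
      (g : Lat d → Ω → ℂ), (∀ n, Measurable (g n)) → iIndepFun g P →
      (∀ n, P.map (g n) = stdComplexGaussian) →
      0 < P {ω | ∀ k : ℕ, d < 2 * k → lifespan d (2 * m + 1) k (datum g α ω) < ∞}

/-- `PosProb` for one energy-supercritical pair contradicts Q1. -/
theorem PosProb.not_Q1 {m : ℕ} (hm : 1 ≤ m) (hsc : 1 < (d : ℝ) / 2 - 1 / m) (h : PosProb d m) :
    ¬ Q1 := by
  intro hQ
  have hp : Odd (2 * m + 1) := ⟨m, rfl⟩
  have hm0 : (0 : ℝ) < m := by exact_mod_cast hm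
  have hsc' : 1 < (d : ℝ) / 2 - 2 / (((2 * m + 1 : ℕ) : ℝ) - 1) := by
    have : (2 : ℝ) / (((2 * m + 1 : ℕ) : ℝ) - 1) = 1 / m := by
      push_cast
      field_simp
      ring
    rw [this]
    exact hsc
  obtain ⟨α₀, H⟩ := hQ d (2 * m + 1) hp (by omega) hsc'
  obtain ⟨α₁, H'⟩ := h
  obtain ⟨Ω, mΩ, P, g, hP, hgm, hind, hg⟩ := exists_gaussians d
  set α : ℝ := max (max α₀ α₁) (2 * d + 1) + 1 with hα
  have hα1 : α₀ < α := by
    rw [hα]; linarith [le_max_left (max α₀ α₁) (2 * (d : ℝ) + 1), le_max_left α₀ α₁]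
  have hα2 : α₁ < α := by
    rw [hα]; linarith [le_max_left (max α₀ α₁) (2 * (d : ℝ) + 1), le_max_right α₀ α₁]
  have hd0 : (0 : ℝ) ≤ d := Nat.cast_nonneg d
  have hα3 : 2 * (d : ℝ) + 2 ≤ α := by
    rw [hα]; linarith [le_max_right (max α₀ α₁) (2 * (d : ℝ) + 1)]
  have h1 := H α hα1 Ω P g hgm hind hg (d + 1) (by omega) (by push_cast; linarith)
  have h2 := H' α hα2 Ω P g hgm hind hg
  refine h2.ne' (measure_mono_null (fun ω hω => ?_) (ae_iff.1 h1))
  simp only [mem_ofPred_eq] at hω ⊢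
  exact (hω (d + 1) (by omega)).ne

theorem BlowBall.posProb {m : ℕ} (h : BlowBall d m s) : PosProb d m :=
  ⟨s + d, fun _ hα _ _ P _ g hgm hind hg => prob_blowup h P g hgm hind hg hα⟩

/-- The reduction: one open ball of blow-up data, for one energy-supercritical pair `(d, 2m+1)`,
gives a negative answer to Q1. -/
theorem not_Q1 {m : ℕ} (hm : 1 ≤ m) (hsc : 1 < (d : ℝ) / 2 - 1 / m) (h : BlowBall d m s) :
    ¬ Q1 := h.posProb.not_Q1 hm hsc

end Vale.Agent.P139.BU
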