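import Vale.Agent.P139.BU.WX

/-!
# P139 / BU : derivatives of inverse Fourier integrals with moments
-/

open MeasureTheory Real FourierTransform Filter Topology
open scoped ComplexConjugate ContDiff ENNReal InnerProductSpace

namespace Vale.Agent.P139.BU

variable {d s : ℕ} {κ : ℝ}

lemma integrable_lin {φ : E d → ℂ} (h0 : AEStronglyMeasurable φ volume)
    (h1 : Integrable fun ξ => ‖ξ‖ * ‖φ ξ‖)
    {m : E d → ℂ} (hm : Continuous m) {C : ℝ} (hb : ∀ ξ, ‖m ξ‖ ≤ C * ‖ξ‖) :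
    Integrable fun ξ => m ξ * φ ξ := by
  refine (h1.const_mul C).mono (hm.aestronglyMeasurable.mul h0)
    (Eventually.of_forall fun ξ => ?_)
  rw [norm_mul]
  calc ‖m ξ‖ * ‖φ ξ‖ ≤ C * ‖ξ‖ * ‖φ ξ‖ := by
        gcongr; exact hb ξ
    _ ≤ ‖C * (‖ξ‖ * ‖φ ξ‖)‖ := by rw [← mul_assoc]; exact le_abs_self _

/-- the derivative of an inverse Fourier integral -/
theorem hasFDerivAt_fi {φ : E d → ℂ} (h0 : Integrable φ) (h1 : Integrable fun ξ => ‖ξ‖ * ‖φ ξ‖)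
    (y : E d) : ∃ L : E d →L[ℝ] ℂ, HasFDerivAt (𝓕⁻ φ) L y ∧
      ∀ v, L v = 𝓕⁻ (fun ξ => (2 * π * Complex.I * (⟪ξ, v⟫_ℝ : ℂ)) * φ ξ) y := by
  have e : 𝓕⁻ φ = 𝓕 (fun x => φ (-x)) := fourierInv_eq_fourier_comp_neg φ
  have h0' : Integrable (fun x => φ (-x)) := h0.comp_neg
  have h1' : Integrable (fun x : E d => ‖x‖ * ‖φ (-x)‖) := by
    have := h1.comp_neg
    simpa using this
  refine ⟨_, e ▸ hasFDerivAt_fourier h0' h1' y, fun v => ?_⟩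
  have h2 : Integrable (VectorFourier.fourierSMulRight (innerSL ℝ) (fun x : E d => φ (-x))) := by
    refine (h1'.const_mul (2 * π)).mono h0'.1.fourierSMulRight
      (Eventually.of_forall fun ξ => ?_)
    rw [VectorFourier.norm_fourierSMulRight, innerSL_apply_norm, Real.norm_of_nonneg (by positivity),
      mul_assoc]
  rw [fourier_continuousLinearMap_apply h2, fourierInv_eq_fourier_comp_neg]
  have h3 : (fun x => VectorFourier.fourierSMulRight (innerSL ℝ) (fun x : E d => φ (-x)) x v) =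
      fun x => (2 * π * Complex.I * (⟪-x, v⟫_ℝ : ℂ)) * φ (-x) := by
    ext x
    have h4 : (innerSL ℝ) x v = ⟪x, v⟫_ℝ := rfl
    simp only [VectorFourier.fourierSMulRight_apply, inner_neg_left, h4,
      Complex.real_smul, smul_eq_mul, Complex.ofReal_neg]
    ring
  rw [h3]

lemma differentiable_fi {φ : E d → ℂ} (h0 : Integrable φ)
    (h1 : Integrable fun ξ => ‖ξ‖ * ‖φ ξ‖) : Differentiable ℝ (𝓕⁻ φ) := fun y => by
  obtain ⟨L, hL, -⟩ := hasFDerivAt_fi h0 h1 y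
  exact hL.differentiableAt

lemma fderiv_fi {φ : E d → ℂ} (h0 : Integrable φ) (h1 : Integrable fun ξ => ‖ξ‖ * ‖φ ξ‖)
    (y v : E d) :
    fderiv ℝ (𝓕⁻ φ) y v = 𝓕⁻ (fun ξ => (2 * π * Complex.I * (⟪ξ, v⟫_ℝ : ℂ)) * φ ξ) y := by
  obtain ⟨L, hL, h⟩ := hasFDerivAt_fi h0 h1 y
  rw [hL.fderiv, h]

/-- `y · ∇` of an inverse Fourier integral -/
lemma eul_fi {φ : E d → ℂ} (h0 : Integrable φ) (h1 : Integrable fun ξ => ‖ξ‖ * ‖φ ξ‖)
    (y : E d) :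
    eul (𝓕⁻ φ) y = 𝓕⁻ (fun ξ => (2 * π * Complex.I * (⟪ξ, y⟫_ℝ : ℂ)) * φ ξ) y :=
  fderiv_fi h0 h1 y y

lemma pd_fi {φ : E d → ℂ} (h0 : Integrable φ) (h1 : Integrable fun ξ => ‖ξ‖ * ‖φ ξ‖)
    (j : Fin d) (y : E d) :
    pd j (𝓕⁻ φ) y = 𝓕⁻ (fun ξ => (2 * π * Complex.I * (ξ j : ℂ)) * φ ξ) y := by
  rw [pd, fderiv_fi h0 h1]
  simp [EuclideanSpace.inner_single_right]

lemma integrable_pd {φ : E d → ℂ} (h0 : AEStronglyMeasurable φ volume)
    (h1 : Integrable fun ξ => ‖ξ‖ * ‖φ ξ‖) (j : Fin d) :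
    Integrable (fun ξ => (2 * π * Complex.I * (ξ j : ℂ)) * φ ξ) := by
  refine integrable_lin h0 h1 (by fun_prop) (C := 2 * π) fun ξ => ?_
  rw [norm_mul, norm_mul, norm_mul, Complex.norm_I, mul_one, Complex.norm_two,
    Complex.norm_real, Complex.norm_real, Real.norm_of_nonneg pi_pos.le]
  gcongr
  exact PiLp.norm_apply_le ξ j

lemma moment_pd {φ : E d → ℂ} (h0 : AEStronglyMeasurable φ volume)
    (h2 : Integrable fun ξ => ‖ξ‖ ^ 2 * ‖φ ξ‖) (j : Fin d) :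
    Integrable (fun ξ => ‖ξ‖ * ‖(2 * π * Complex.I * (ξ j : ℂ)) * φ ξ‖) := by
  refine (h2.const_mul (2 * π)).mono ?_ (Eventually.of_forall fun ξ => ?_)
  · exact continuous_norm.aestronglyMeasurable.mul
      ((Continuous.aestronglyMeasurable (by fun_prop)).mul h0).norm
  · rw [Real.norm_of_nonneg (by positivity), Real.norm_of_nonneg (by positivity),
      norm_mul, norm_mul, norm_mul, norm_mul, Complex.norm_I, mul_one, Complex.norm_two,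
      Complex.norm_real, Complex.norm_real, Real.norm_of_nonneg pi_pos.le]
    have : ‖ξ j‖ ≤ ‖ξ‖ := PiLp.norm_apply_le ξ j
    calc ‖ξ‖ * (2 * π * ‖ξ j‖ * ‖φ ξ‖) ≤ ‖ξ‖ * (2 * π * ‖ξ‖ * ‖φ ξ‖) := by gcongr
      _ = 2 * π * (‖ξ‖ ^ 2 * ‖φ ξ‖) := by ring

lemma moment_one {φ : E d → ℂ} (h0 : Integrable φ)
    (h2 : Integrable fun ξ => ‖ξ‖ ^ 2 * ‖φ ξ‖) : Integrable fun ξ => ‖ξ‖ * ‖φ ξ‖ := by
  refine (h0.norm.add h2).mono (continuous_norm.aestronglyMeasurable.mul h0.1.norm)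
    (Eventually.of_forall fun ξ => ?_)
  simp only [Pi.add_apply]
  rw [Real.norm_of_nonneg (by positivity), Real.norm_of_nonneg (by positivity)]
  nlinarith [norm_nonneg ξ, norm_nonneg (φ ξ), mul_nonneg (sq_nonneg (‖ξ‖ - 1)) (norm_nonneg (φ ξ)),
    mul_nonneg (norm_nonneg ξ) (norm_nonneg (φ ξ)), mul_nonneg (sq_nonneg ‖ξ‖) (norm_nonneg (φ ξ))]

/-- the Laplacian of an inverse Fourier integral -/
theorem lap_fi {φ : E d → ℂ} (h0 : Integrable φ)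
    (h2 : Integrable fun ξ => ‖ξ‖ ^ 2 * ‖φ ξ‖) (y : E d) :
    lap (𝓕⁻ φ) y = 𝓕⁻ (fun ξ => (-(4 * π ^ 2 * ‖ξ‖ ^ 2 : ℝ) : ℂ) * φ ξ) y := by
  have h1 := moment_one h0 h2
  have e1 : ∀ j : Fin d, pd j (𝓕⁻ φ) =
      𝓕⁻ (fun ξ => (2 * π * Complex.I * (ξ j : ℂ)) * φ ξ) := fun j => by
    ext y; exact pd_fi h0 h1 j y
  have e2 : ∀ j : Fin d, pd j (pd j (𝓕⁻ φ)) y =
      𝓕⁻ (fun ξ => (2 * π * Complex.I * (ξ j : ℂ)) *
        ((2 * π * Complex.I * (ξ j : ℂ)) * φ ξ)) y := fun j => by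
    rw [e1, pd_fi (integrable_pd h0.1 h1 j) (moment_pd h0.1 h2 j)]
  have e3 : ∀ j : Fin d, Integrable (fun ξ => (2 * π * Complex.I * (ξ j : ℂ)) *
        ((2 * π * Complex.I * (ξ j : ℂ)) * φ ξ)) := fun j =>
    integrable_pd (integrable_pd h0.1 h1 j).1 (moment_pd h0.1 h2 j) j
  simp only [lap, e2]
  simp only [fourierInv_eq]
  rw [← integral_finsetSum _ fun j _ => integrable_char (e3 j) y]
  congr 1
  ext ξ
  rw [← Finset.smul_sum]
  congr 1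
  have : ∀ j : Fin d, (2 * π * Complex.I * (ξ j : ℂ)) * ((2 * π * Complex.I * (ξ j : ℂ)) * φ ξ)
      = (-(4 * π ^ 2 : ℝ) : ℂ) * φ ξ * ((ξ j) ^ 2 : ℝ) := by
    intro j
    push_cast
    ring_nf
    rw [Complex.I_sq]
    ring
  simp only [this]
  rw [← Finset.mul_sum, EuclideanSpace.norm_eq, Real.sq_sqrt (by positivity)]
  push_cast
  simp only [Real.norm_eq_abs, ← Complex.ofReal_pow, sq_abs]
  push_cast
  ring

/-- smoothness and bounds of all derivatives up to order `K` -/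
theorem bddC_fi {K : ℕ} {φ : E d → ℂ} (h0 : AEStronglyMeasurable φ volume)
    (h : ∀ n ≤ K, Integrable fun ξ => ‖ξ‖ ^ n * ‖φ ξ‖) : BddC K (𝓕⁻ φ) := by
  have e : 𝓕⁻ φ = 𝓕 (fun x => φ (-x)) := fourierInv_eq_fourier_comp_neg φ
  have h' : ∀ n : ℕ, n ≤ (K : ℕ∞) → Integrable (fun x : E d => ‖x‖ ^ n * ‖φ (-x)‖) := by
    intro n hn
    have := (h n (by exact_mod_cast hn)).comp_neg
    simpa using this
  have h0' : AEStronglyMeasurable (fun x => φ (-x)) volume :=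
    h0.comp_quasiMeasurePreserving
      (Measure.measurePreserving_neg (volume : Measure (E d))).quasiMeasurePreserving
  rw [e]
  refine ⟨contDiff_fourier h', fun k hk => ⟨∫ v : E d, ‖(fun v =>
    VectorFourier.fourierPowSMulRight (innerSL ℝ) (fun x => φ (-x)) v k) v‖, fun x => ?_⟩⟩
  rw [iteratedFDeriv_fourier h' h0' (by exact_mod_cast hk), fourier_eq]
  refine (norm_integral_le_integral_norm _).trans (le_of_eq ?_)
  simp_rw [Circle.norm_smul]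

lemma BddC.mono {K K' : ℕ} (hK : K ≤ K') {f : E d → ℂ} (h : BddC K' f) : BddC K f :=
  ⟨h.1.of_le (by exact_mod_cast hK), fun k hk => h.2 k (hk.trans hK)⟩

/-! ### Elements of the space -/

lemma XK.bddC (hκ : 0 < κ) (f : XK d s κ) : BddC s (ev f) :=
  bddC_fi (XK.aesm hκ.le f) fun _ hn => XK.moment hκ f hn

lemma XK.moment1 (hκ : 0 < κ) (hs : 1 ≤ s) (f : XK d s κ) :
    Integrable fun ξ => ‖ξ‖ * ‖f ξ‖ := by simpa using XK.moment hκ f hs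

lemma XK.eul_ev (hκ : 0 < κ) (hs : 1 ≤ s) (f : XK d s κ) (y : E d) :
    eul (ev f) y = 𝓕⁻ (fun ξ => (2 * π * Complex.I * (⟪ξ, y⟫_ℝ : ℂ)) * f ξ) y :=
  eul_fi (XK.integrable hκ.le f) (XK.moment1 hκ hs f) y

lemma XK.pd_ev (hκ : 0 < κ) (hs : 1 ≤ s) (f : XK d s κ) (j : Fin d) (y : E d) :
    pd j (ev f) y = 𝓕⁻ (fun ξ => (2 * π * Complex.I * (ξ j : ℂ)) * f ξ) y :=
  pd_fi (XK.integrable hκ.le f) (XK.moment1 hκ hs f) j y

lemma XK.lap_ev (hκ : 0 < κ) (hs : 2 ≤ s) (f : XK d s κ) (y : E d) :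
    lap (ev f) y = 𝓕⁻ (fun ξ => (-(4 * π ^ 2 * ‖ξ‖ ^ 2 : ℝ) : ℂ) * f ξ) y :=
  lap_fi (XK.integrable hκ.le f) (XK.moment hκ f hs) y

end Vale.Agent.P139.BU
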